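import Crest.Agent.R197.Defs
import Crest.Agent.R174.Stokes

/-! Row 197: the degree of self-maps of `(S³)^J`, as an integral over `ℍ^J`. -/

set_option autoImplicit false

namespace Crest.Agent.R197

open scoped Quaternion Topology
open MeasureTheory

noncomputable instance : MeasurableSpace ℍ := borel ℍ
instance : BorelSpace ℍ := ⟨rfl⟩

/-- The ambient space (sup norm). -/
abbrev E (J : Type) : Type := J → ℍ

variable {J : Type} [Fintype J] [DecidableEq J]

/-- Haar measure on the ambient space. -/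
noncomputable def μE (J : Type) [Fintype J] : Measure (E J) := Measure.addHaar

instance : (μE J).IsAddHaarMeasure := by unfold μE; infer_instance

/-- All coordinates are unit quaternions. -/
def IsUnitPt (x : E J) : Prop := ∀ j, ‖x j‖ = 1

/-- Maps that are `C²` and unit-valued at unit points. -/
def Adm (W : E J → ℍ) : Prop := ∀ x, IsUnitPt x → ContDiffAt ℝ 2 W x ∧ ‖W x‖ = 1

/-- Families of such maps. -/
def AdmF (W : ℝ × E J → ℍ) : Prop :=
  ∀ t x, IsUnitPt x → ContDiffAt ℝ 2 W (t, x) ∧ ‖W (t, x)‖ = 1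

/-- Coordinatewise normalisation. -/
noncomputable def nrm (x : E J) : E J := fun j => ‖x j‖⁻¹ • x j

/-- A cutoff: `0` if some `‖x j‖² ≤ 1/8`, and `1` if all `‖x j‖² ≥ 1/4`. -/
noncomputable def cut (x : E J) : ℝ := ∏ j, Real.smoothTransition (8 * ‖x j‖ ^ 2 - 1)

/-- The radial extension of `W`, recentred at the target `1`. -/
noncomputable def hat (W : J → E J → ℍ) (x : E J) : E J :=
  fun k => (cut x * ‖x k‖) • W k (nrm x) - 1

/-- Test functions supported in a small ball. -/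
def Bump (φ : E J → ℝ) (ε : ℝ) : Prop := ContDiff ℝ 2 φ ∧ ∀ y, φ y ≠ 0 → ‖y‖ < ε

/-- The degree, weighted by the test function. -/
noncomputable def Deg (φ : E J → ℝ) (W : J → E J → ℍ) : ℝ :=
  ∫ x, φ (hat W x) * (fderiv ℝ (hat W) x).det ∂(μE J)

theorem Adm.admF {W : E J → ℍ} (h : Adm W) : AdmF fun p : ℝ × E J => W p.2 := by
  intro t x hx
  exact ⟨(h x hx).1.comp (t, x) contDiffAt_snd, (h x hx).2⟩

theorem AdmF.adm {W : ℝ × E J → ℍ} (h : AdmF W) (t : ℝ) : Adm fun x => W (t, x) := by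
  intro x hx
  exact ⟨(h t x hx).1.comp x (contDiffAt_const.prodMk contDiffAt_id), (h t x hx).2⟩

theorem Adm.mul {f g : E J → ℍ} (hf : Adm f) (hg : Adm g) : Adm (f * g) := by
  intro x hx
  refine ⟨(hf x hx).1.mul (hg x hx).1, ?_⟩
  rw [Pi.mul_apply, norm_mul, (hf x hx).2, (hg x hx).2, one_mul]

theorem cut_contDiff : ContDiff ℝ 2 (cut : E J → ℝ) := by
  unfold cut
  refine contDiff_prod fun j _ => Real.smoothTransition.contDiff.comp ?_
  exact (contDiff_const.mul ((contDiff_norm_sq ℝ).comp (contDiff_apply ℝ ℍ j))).sub contDiff_const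

theorem nrm_unit {x : E J} (h : ∀ j, x j ≠ 0) : IsUnitPt (nrm x) := by
  intro j
  have : ‖x j‖ ≠ 0 := norm_ne_zero_iff.2 (h j)
  rw [nrm, norm_smul, norm_inv, norm_norm, inv_mul_cancel₀ this]

theorem nrm_contDiffAt {x : E J} (h : ∀ j, x j ≠ 0) : ContDiffAt ℝ 2 (nrm : E J → E J) x := by
  refine contDiffAt_pi.2 fun j => ?_
  have h1 : ContDiffAt ℝ 2 (fun y : E J => y j) x := (contDiff_apply ℝ ℍ j).contDiffAt
  exact ((h1.norm ℝ (h j)).inv (norm_ne_zero_iff.2 (h j))).smul h1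

theorem DegA_cut_eventually_zero {x : E J} {j : J} (h : x j = 0) : ∀ᶠ y in 𝓝 x, cut y = 0 := by
  have hc : Continuous fun y : E J => 8 * ‖y j‖ ^ 2 - 1 := by fun_prop
  have h0 : 8 * ‖x j‖ ^ 2 - 1 < 0 := by rw [h]; norm_num
  filter_upwards [hc.continuousAt.eventually (gt_mem_nhds h0)] with y hy
  exact Finset.prod_eq_zero (Finset.mem_univ j) (Real.smoothTransition.zero_of_nonpos hy.le)

theorem DegA_ne_zero_of_cut {x : E J} (h : cut x ≠ 0) (j : J) : x j ≠ 0 := fun h0 =>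
  h (DegA_cut_eventually_zero h0).self_of_nhds

theorem DegA_cut_nonneg (x : E J) : 0 ≤ cut x :=
  Finset.prod_nonneg fun _ _ => Real.smoothTransition.nonneg _

theorem DegA_cut_le_one (x : E J) : cut x ≤ 1 :=
  Finset.prod_le_one (fun _ _ => Real.smoothTransition.nonneg _)
    fun _ _ => Real.smoothTransition.le_one _

theorem DegA_cut_eq_one {x : E J} (h : ∀ j, 1 / 2 ≤ ‖x j‖) : cut x = 1 :=
  Finset.prod_eq_one fun j _ => Real.smoothTransition.one_of_one_le (by nlinarith [h j])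

/-- The cutoff makes every admissible map globally smooth. -/
theorem AdmF.contDiff_cut {W : ℝ × E J → ℍ} (h : AdmF W) :
    ContDiff ℝ 2 fun p : ℝ × E J => cut p.2 • W (p.1, nrm p.2) := by
  rw [contDiff_iff_contDiffAt]
  intro p
  by_cases hp : ∀ j, p.2 j ≠ 0
  · refine (cut_contDiff.contDiffAt.comp p contDiffAt_snd).smul ?_
    exact (h p.1 _ (nrm_unit hp)).1.comp p
      (contDiffAt_fst.prodMk ((nrm_contDiffAt hp).comp p contDiffAt_snd))
  · push Not at hp
    obtain ⟨j, hj⟩ := hp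
    refine (contDiffAt_const (c := (0 : ℍ))).congr_of_eventuallyEq ?_
    filter_upwards [continuous_snd.continuousAt.eventually (DegA_cut_eventually_zero hj)] with q hq
    rw [hq, zero_smul]

theorem hatF_contDiff {W : J → ℝ × E J → ℍ} (h : ∀ k, AdmF (W k)) :
    ContDiff ℝ 2 fun p : ℝ × E J => hat (fun k x => W k (p.1, x)) p.2 := by
  refine contDiff_pi.2 fun k => ?_
  refine ContDiff.sub ?_ contDiff_const
  rw [contDiff_iff_contDiffAt]
  intro p
  by_cases hp : p.2 k = 0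
  · refine (contDiffAt_const (c := (0 : ℍ))).congr_of_eventuallyEq ?_
    filter_upwards [continuous_snd.continuousAt.eventually (DegA_cut_eventually_zero hp)] with q hq
    rw [hq, zero_mul, zero_smul]
  · have h1 : ContDiffAt ℝ 2 (fun q : ℝ × E J => q.2 k) p :=
      ((contDiff_apply ℝ ℍ k).comp contDiff_snd).contDiffAt
    have h2 := (h1.norm ℝ hp).smul (h k).contDiff_cut.contDiffAt
    refine h2.congr_of_eventuallyEq (Filter.Eventually.of_forall fun q => ?_)
    change (cut q.2 * ‖q.2 k‖) • W k (q.1, nrm q.2) = ‖q.2 k‖ • cut q.2 • W k (q.1, nrm q.2)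
    rw [smul_smul, mul_comm]

theorem hat_contDiff {W : J → E J → ℍ} (h : ∀ k, Adm (W k)) : ContDiff ℝ 2 (hat W) := by
  have h1 : ContDiff ℝ 2 fun p : ℝ × E J => hat W p.2 :=
    hatF_contDiff (W := fun k p => W k p.2) fun k => (h k).admF
  have h2 : ContDiff ℝ 2 fun x : E J => ((0 : ℝ), x) := contDiff_const.prodMk contDiff_id
  have h3 := h1.comp h2
  simpa only [Function.comp_def] using h3

theorem hat_small {W : J → E J → ℍ} (h : ∀ k, Adm (W k)) {x : E J} (hx : ‖hat W x‖ < 1 / 2) :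
    (∀ j, 1 / 2 < ‖x j‖ ∧ |‖x j‖ - 1| ≤ ‖hat W x‖) ∧ (∀ᶠ y in 𝓝 x, cut y = 1) ∧
      ∀ k, ‖W k (nrm x) - 1‖ ≤ 2 * ‖hat W x‖ := by
  have hk : ∀ k, ‖(cut x * ‖x k‖) • W k (nrm x) - 1‖ ≤ ‖hat W x‖ := fun k =>
    norm_le_pi_norm (hat W x) k
  have hc : ∀ _ : J, cut x ≠ 0 := fun k h0 => by
    have := hk k
    rw [h0, zero_mul, zero_smul, zero_sub, norm_neg, norm_one] at this
    linarith
  have hW : ∀ k, ‖W k (nrm x)‖ = 1 := fun k =>
    (h k _ (nrm_unit (DegA_ne_zero_of_cut (hc k)))).2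
  have habs : ∀ k, |cut x * ‖x k‖ - 1| ≤ ‖hat W x‖ := fun k => by
    refine le_trans ?_ (hk k)
    have := abs_norm_sub_norm_le ((cut x * ‖x k‖) • W k (nrm x)) 1
    rwa [norm_smul, hW, mul_one, norm_one, Real.norm_eq_abs,
      abs_of_nonneg (mul_nonneg (DegA_cut_nonneg x) (norm_nonneg _))] at this
  have hhalf : ∀ k, 1 / 2 < ‖x k‖ := fun k => by
    have h1 := (abs_le.1 (habs k)).1
    have h2 : cut x * ‖x k‖ ≤ ‖x k‖ := mul_le_of_le_one_left (norm_nonneg _) (DegA_cut_le_one x)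
    linarith
  have hc1 : cut x = 1 := DegA_cut_eq_one fun j => (hhalf j).le
  simp only [hc1, one_mul] at hk habs
  refine ⟨fun j => ⟨hhalf j, habs j⟩, ?_, fun k => ?_⟩
  · have : ∀ᶠ y in 𝓝 x, ∀ j, 1 / 2 < ‖y j‖ := Filter.eventually_all.2 fun j =>
      (by fun_prop : Continuous fun y : E J => ‖y j‖).continuousAt.eventually
        (lt_mem_nhds (hhalf j))
    filter_upwards [this] with y hy
    exact DegA_cut_eq_one fun j => (hy j).le
  · have e : W k (nrm x) - 1 = (‖x k‖ • W k (nrm x) - 1) - (‖x k‖ - 1) • W k (nrm x) := by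
      rw [sub_smul, one_smul]; abel
    rw [e]
    refine (norm_sub_le _ _).trans ?_
    rw [norm_smul, hW, mul_one, Real.norm_eq_abs]
    linarith [hk k, habs k]

theorem hat_unit (W : J → E J → ℍ) {x : E J} (hx : IsUnitPt x) (k : J) :
    hat W x k = W k x - 1 := by
  have h1 : cut x = 1 := DegA_cut_eq_one fun j => by rw [hx j]; norm_num
  have h2 : nrm x = x := funext fun j => by rw [nrm, hx j, inv_one, one_smul]
  rw [hat, h1, h2, hx k, one_mul, one_smul]

theorem hat_eq_zero {W : J → E J → ℍ} (h : ∀ k, Adm (W k)) {x : E J} :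
    hat W x = 0 ↔ IsUnitPt x ∧ ∀ k, W k x = 1 := by
  constructor
  · intro h0
    have hu : IsUnitPt x := fun j => by
      have := ((hat_small h (x := x) (by rw [h0, norm_zero]; norm_num)).1 j).2
      rw [h0, norm_zero] at this
      exact sub_eq_zero.1 (abs_nonpos_iff.1 this)
    exact ⟨hu, fun k => sub_eq_zero.1 ((hat_unit W hu k).symm.trans (congrFun h0 k))⟩
  · rintro ⟨hu, h1⟩
    funext k
    rw [hat_unit W hu k, h1, sub_self, Pi.zero_apply]

theorem exists_bump {ε : ℝ} (hε : 0 < ε) :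
    ∃ φ : E J → ℝ, Bump φ ε ∧ (∀ y, 0 ≤ φ y) ∧ φ 0 = 1 := by
  let b : ContDiffBump (0 : E J) := ⟨ε / 2, ε, by positivity, by linarith⟩
  refine ⟨b, ⟨b.contDiff, fun y hy => ?_⟩, fun y => b.nonneg, b.one_of_mem_closedBall ?_⟩
  · have : y ∈ Function.support b := hy
    rw [b.support_eq] at this
    exact mem_ball_zero_iff.1 this
  · exact Metric.mem_closedBall_self (by positivity : (0 : ℝ) ≤ ε / 2)

theorem Deg_integrable {φ : E J → ℝ} (hφ : Bump φ (1 / 2)) {W : J → E J → ℍ}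
    (h : ∀ k, Adm (W k)) :
    Integrable (fun x => φ (hat W x) * (fderiv ℝ (hat W) x).det) (μE J) := by
  have hc := hat_contDiff h
  refine Continuous.integrable_of_hasCompactSupport ?_ ?_
  · exact (hφ.1.continuous.comp hc.continuous).mul
      (ContinuousLinearMap.continuous_det.comp (hc.continuous_fderiv (by norm_num)))
  · refine HasCompactSupport.intro (isCompact_closedBall (0 : E J) 2) fun x hx => ?_
    by_contra h0
    have h1 := (hat_small h (hφ.2 _ (left_ne_zero_of_mul h0))).1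
    have h2 := hφ.2 _ (left_ne_zero_of_mul h0)
    refine hx (mem_closedBall_zero_iff.2 ((pi_norm_le_iff_of_nonneg (by norm_num)).2 fun j => ?_))
    linarith [(abs_le.1 (h1 j).2).2]

omit [DecidableEq J] in
theorem persist_ker (L : ℝ × E J →L[ℝ] E J) : ∃ u, u ≠ 0 ∧ L u = 0 := by
  obtain ⟨u, hu, hu0⟩ := Submodule.exists_mem_ne_zero_of_ne_bot
    (LinearMap.ker_ne_bot_of_finrank_lt (f := (L : ℝ × E J →ₗ[ℝ] E J)) (by simp))
  exact ⟨u, hu0, hu⟩

/-- Localised homotopy invariance.  On the compact set `closure {x | fderiv ℝ Ξ x ≠ 0}` the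
homotopy has no zero, so `‖H‖ ≥ ε` there; apply `R174.stokes` with `η = Ξ * φ ∘ H` (the kernel of
`fderiv H` is non-trivial by dimension). -/
theorem persist (H : ℝ × E J → E J) (hH : ContDiff ℝ 2 H) (Ξ : E J → ℝ) (hΞ : ContDiff ℝ 2 Ξ)
    (hc : HasCompactSupport Ξ)
    (hz : ∀ t ∈ Set.Icc (0 : ℝ) 1, ∀ x, H (t, x) = 0 → ∀ᶠ y in 𝓝 x, Ξ y = Ξ x) :
    ∃ ε > 0, ∀ φ : E J → ℝ, Bump φ ε →
      ∫ x, Ξ x * φ (H (0, x)) * (fderiv ℝ (fun y => H (0, y)) x).det ∂(μE J) =
        ∫ x, Ξ x * φ (H (1, x)) * (fderiv ℝ (fun y => H (1, y)) x).det ∂(μE J) := by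
  have hK : IsCompact (Set.Icc (0 : ℝ) 1 ×ˢ tsupport (fderiv ℝ Ξ)) :=
    isCompact_Icc.prod (hc.fderiv ℝ)
  obtain ⟨ε, hε, hle⟩ := hK.exists_forall_le' (f := fun p => ‖H p‖) (a := 0)
    hH.continuous.norm.continuousOn (by
      rintro ⟨t, x⟩ ⟨ht, hx⟩
      rw [norm_pos_iff]
      intro h0
      refine absurd hx (notMem_tsupport_iff_eventuallyEq.2 ?_)
      filter_upwards [(hz t ht x h0).eventually_nhds] with y hy
      rw [Filter.EventuallyEq.fderiv_eq (f := fun _ => Ξ x) hy]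
      simp)
  refine ⟨ε, hε, fun φ hφ => ?_⟩
  refine R174.stokes (μE J) (fun p => Ξ p.2 * φ (H p)) H
    ((hΞ.comp contDiff_snd).mul (hφ.1.comp hH)) hH hc (fun t _ x hx => ?_) fun t ht x => ?_
  · exact subset_tsupport _ (left_ne_zero_of_mul hx)
  · obtain ⟨u, hu, hu0⟩ := persist_ker (fderiv ℝ H (t, x))
    refine ⟨u, hu, ?_, hu0⟩
    have d1 : HasFDerivAt (fun p : ℝ × E J => Ξ p.2)
        ((fderiv ℝ Ξ x).comp (ContinuousLinearMap.snd ℝ ℝ (E J))) (t, x) :=
      HasFDerivAt.comp (t, x) (g := Ξ) (hΞ.differentiable (by norm_num) x).hasFDerivAt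
        hasFDerivAt_snd
    have d2 : HasFDerivAt (fun p : ℝ × E J => φ (H p))
        ((fderiv ℝ φ (H (t, x))).comp (fderiv ℝ H (t, x))) (t, x) :=
      HasFDerivAt.comp (t, x) (g := φ) (hφ.1.differentiable (by norm_num) _).hasFDerivAt
        (hH.differentiable (by norm_num) _).hasFDerivAt
    rw [(d1.fun_mul d2).fderiv]
    by_cases hx : fderiv ℝ Ξ x = 0
    · simp [hu0, hx]
    · have h1 : φ (H (t, x)) = 0 := by
        by_contra h1
        exact absurd (hφ.2 _ h1) (not_lt.2 (hle (t, x) ⟨ht, subset_tsupport _ hx⟩))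
      simp [hu0, h1]

/-- Homotopy invariance (`R174.stokes` with `η = φ ∘ hat`). -/
theorem Deg_homotopy {φ : E J → ℝ} (hφ : Bump φ (1 / 2)) {W : J → ℝ × E J → ℍ}
    (h : ∀ k, AdmF (W k)) :
    Deg φ (fun k x => W k (0, x)) = Deg φ (fun k x => W k (1, x)) := by
  have hH := hatF_contDiff h
  refine R174.stokes (μE J) (fun p => φ (hat (fun k x => W k (p.1, x)) p.2))
    (fun p => hat (fun k x => W k (p.1, x)) p.2) (hφ.1.comp hH) hH
    (isCompact_closedBall (0 : E J) 2) (fun t _ x hx => ?_) fun t _ x => ?_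
  · have h1 := hφ.2 _ hx
    have h2 := (hat_small (fun k => (h k).adm t) h1).1
    rw [mem_closedBall_zero_iff, pi_norm_le_iff_of_nonneg (by norm_num)]
    intro j
    have h3 := (abs_le.1 (h2 j).2).2
    linarith
  · obtain ⟨u, hu, hu0⟩ := persist_ker
      (fderiv ℝ (fun p : ℝ × E J => hat (fun k x => W k (p.1, x)) p.2) (t, x))
    refine ⟨u, hu, ?_, hu0⟩
    have d2 := HasFDerivAt.comp (t, x) (g := φ) (hφ.1.differentiable (by norm_num) _).hasFDerivAt
        (hH.differentiable (by norm_num) (t, x)).hasFDerivAt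
    refine (congrArg (fun L => L u) d2.fderiv).trans ?_
    simp [hu0]

/-- The degree only depends on the values at unit points. -/
theorem hat_congr {W W' : J → E J → ℍ} (h : ∀ k x, IsUnitPt x → W k x = W' k x) :
    hat W = hat W' := by
  funext x k
  by_cases hc : cut x = 0
  · simp only [hat, hc, zero_mul, zero_smul]
  · simp only [hat, h k _ (nrm_unit (DegA_ne_zero_of_cut hc))]

end Crest.Agent.R197
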