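import Crest.Agent.R197.DegA
import Crest.Agent.R197.Spread

/-! Row 197: the degree is additive and alternating in the slots. -/

set_option autoImplicit false

namespace Crest.Agent.R197

open scoped Quaternion Topology
open MeasureTheory

variable {J : Type} [Fintype J] [DecidableEq J]

/-- A map `(S³)^J → (S³)^J × S³` misses a neighbourhood of some point.  The globally `C²` map
`(x, s) ↦ (hat W x + 1, s • cut x • g (nrm x))` from `E J × ℝ` to `E J × ℍ` has a range with dense
complement (`ContDiff.dense_compl_range_of_finrank_lt_finrank`); take a missed point with all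
coordinates of norm `> 1/2`, normalise it, and use compactness of the unit points. -/
theorem exists_missing {W : J → E J → ℍ} (hW : ∀ k, Adm (W k)) {g : E J → ℍ} (hg : Adm g) :
    ∃ (y : J → U) (p : U) (ε : ℝ), 0 < ε ∧ ∀ x, IsUnitPt x →
      (∃ k, ε < ‖W k x - (y k : ℍ)‖) ∨ ε < ‖g x - (p : ℍ)‖ := by
  let Φ : E J × ℝ → E J × ℍ := fun q => (hat W q.1 + 1, q.2 • (cut q.1 • g (nrm q.1)))
  have hΦ : ContDiff ℝ 2 Φ := by
    have h0 : ContDiff ℝ 2 fun p : ℝ × E J => cut p.2 • g (nrm p.2) := hg.admF.contDiff_cut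
    have h2 : ContDiff ℝ 2 fun q : E J × ℝ => (q.2, q.1) := contDiff_snd.prodMk contDiff_fst
    have h1 : ContDiff ℝ 2 fun q : E J × ℝ => cut q.1 • g (nrm q.1) := by
      have := h0.comp h2
      exact this
    have h3 : ContDiff ℝ 2 fun q : E J × ℝ => hat W q.1 := by
      have := (hat_contDiff hW).comp (contDiff_fst (E := E J) (F := ℝ))
      exact this
    exact (h3.add contDiff_const).prodMk (contDiff_snd.smul h1)
  have hd : Dense (Set.range Φ)ᶜ := by
    apply (hΦ.of_le (by norm_num)).dense_compl_range_of_finrank_lt_finrank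
    rw [Module.finrank_prod, Module.finrank_prod, Module.finrank_self, Quaternion.finrank_eq_four]
    omega
  obtain ⟨⟨y', p'⟩, h1, h2⟩ := hd.exists_mem_open (Metric.isOpen_ball (x := ((1, 1) : E J × ℍ))
    (ε := 1 / 2)) (Metric.nonempty_ball.2 (by norm_num))
  rw [mem_ball_iff_norm, Prod.norm_def, max_lt_iff] at h2
  have big : ∀ u : ℍ, ‖u - 1‖ < 1 / 2 → 1 / 2 < ‖u‖ := by
    intro u hu
    have := norm_sub_norm_le (1 : ℍ) u
    rw [norm_sub_rev, norm_one] at this
    linarith
  have hy : ∀ k, 1 / 2 < ‖y' k‖ := fun k => big _ ((norm_le_pi_norm (y' - 1) k).trans_lt h2.1)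
  have hp : 1 / 2 < ‖p'‖ := big _ h2.2
  have unit : ∀ u : ℍ, 1 / 2 < ‖u‖ → ‖u‖⁻¹ • u ∈ Metric.sphere (0 : ℍ) 1 := by
    intro u hu
    rw [mem_sphere_zero_iff_norm, norm_smul, norm_inv, norm_norm, inv_mul_cancel₀ (by linarith)]
  let y : J → U := fun k => ⟨_, unit _ (hy k)⟩
  let p : U := ⟨_, unit _ hp⟩
  let d : E J → ℝ := fun x => ‖((fun k => W k x - (y k : ℍ), g x - (p : ℍ)) : E J × ℍ)‖
  have hK : IsCompact {x : E J | IsUnitPt x} := by
    have : {x : E J | IsUnitPt x} = Set.univ.pi fun _ => Metric.sphere (0 : ℍ) 1 := by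
      ext x
      simp [IsUnitPt]
    rw [this]
    exact isCompact_univ_pi fun _ => isCompact_sphere _ _
  have hc : ContinuousOn d {x : E J | IsUnitPt x} := by
    intro x hx
    apply ContinuousAt.continuousWithinAt
    apply ContinuousAt.norm
    refine ContinuousAt.prodMk (continuousAt_pi.2 fun k => ?_) ?_
    · exact (hW k x hx).1.continuousAt.sub continuousAt_const
    · exact (hg x hx).1.continuousAt.sub continuousAt_const
  have hpos : ∀ x ∈ {x : E J | IsUnitPt x}, 0 < d x := by
    intro x hx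
    rw [norm_pos_iff]
    intro h0
    apply h1
    have e1 : ∀ k, W k x = (y k : ℍ) := fun k => sub_eq_zero.1 (congrFun (congrArg Prod.fst h0) k)
    have e2 : g x = (p : ℍ) := sub_eq_zero.1 (congrArg Prod.snd h0)
    let x' : E J := fun k => ‖y' k‖ • x k
    have n1 : ∀ k, ‖x' k‖ = ‖y' k‖ := fun k => by
      simp only [x', norm_smul, norm_norm, hx k, mul_one]
    have n2 : nrm x' = x := by
      funext k
      have := hy k
      simp only [nrm, n1]
      simp only [x']
      rw [smul_smul, inv_mul_cancel₀ (by linarith), one_smul]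
    have n3 : cut x' = 1 := by
      unfold cut
      apply Finset.prod_eq_one
      intro j _
      apply Real.smoothTransition.one_of_one_le
      have := hy j
      rw [n1]
      nlinarith
    refine ⟨(x', ‖p'‖), Prod.ext ?_ ?_⟩
    · funext k
      have := hy k
      simp only [Φ, hat, Pi.add_apply, Pi.one_apply, n1, n2, n3, one_mul, sub_add_cancel, e1, y]
      rw [smul_smul, mul_inv_cancel₀ (by linarith), one_smul]
    · simp only [Φ, n2, n3, one_smul, e2, p]
      rw [smul_smul, mul_inv_cancel₀ (by linarith), one_smul]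
  obtain ⟨m, hm, hle⟩ := hK.exists_forall_le' hc hpos
  refine ⟨y, p, m / 2, by linarith, fun x hx => ?_⟩
  by_contra hn
  push Not at hn
  have := hle x hx
  simp only [d, Prod.norm_def] at this
  have h3 : ‖(fun k => W k x - (y k : ℍ) : E J)‖ ≤ m / 2 :=
    (pi_norm_le_iff_of_nonneg (by linarith)).2 hn.1
  have := this.trans (max_le h3 hn.2)
  linarith

/-- Homotopic admissible maps. -/
def DegB_Hom (f f' : E J → ℍ) : Prop :=
  ∃ H : ℝ × E J → ℍ, AdmF H ∧ (∀ x, IsUnitPt x → H (0, x) = f x) ∧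
    ∀ x, IsUnitPt x → H (1, x) = f' x

theorem DegB_congr {φ : E J → ℝ} (hφ : Bump φ (1 / 2)) {W W' : J → E J → ℍ}
    (h : ∀ k, DegB_Hom (W k) (W' k)) : Deg φ W = Deg φ W' := by
  choose H h1 h2 h3 using h
  have := Deg_homotopy hφ h1
  unfold Deg at this ⊢
  rwa [hat_congr (W' := W) h2, hat_congr (W' := W') h3] at this

theorem DegB_refl {f : E J → ℍ} (hf : Adm f) : DegB_Hom f f :=
  ⟨fun p => f p.2, hf.admF, fun _ _ => rfl, fun _ _ => rfl⟩

omit [DecidableEq J] in
theorem DegB_mul {f f' g g' : E J → ℍ} (hf : DegB_Hom f f') (hg : DegB_Hom g g') :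
    DegB_Hom (f * g) (f' * g') := by
  obtain ⟨H, h1, h2, h3⟩ := hf
  obtain ⟨H', h1', h2', h3'⟩ := hg
  refine ⟨fun p => H p * H' p, fun t x hx => ⟨(h1 t x hx).1.mul (h1' t x hx).1, ?_⟩,
    fun x hx => ?_, fun x hx => ?_⟩
  · simp only [norm_mul, (h1 t x hx).2, (h1' t x hx).2, mul_one]
  · simp only [h2 x hx, h2' x hx, Pi.mul_apply]
  · simp only [h3 x hx, h3' x hx, Pi.mul_apply]

omit [DecidableEq J] in
theorem DegB_neg {f : E J → ℍ} (hf : Adm f) : DegB_Hom f (-f) := by
  obtain ⟨A, hA, h0, h1, -⟩ := exists_path (-1)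
  refine ⟨fun p => (A p.1 : ℍ) * f p.2, fun t x hx => ⟨?_, ?_⟩, fun x _ => ?_, fun x _ => ?_⟩
  · exact (hA.contDiffAt.comp (t, x) contDiffAt_fst).mul
      ((hf x hx).1.comp (t, x) contDiffAt_snd)
  · simp only [norm_mul, (hf x hx).2, mul_one, norm_eq_of_mem_sphere]
  · simp [h0]
  · simp [h1]

omit [DecidableEq J] in
theorem DegB_adm_neg {f : E J → ℍ} (hf : Adm f) : Adm (-f) := fun x hx =>
  ⟨(hf x hx).1.neg, by rw [Pi.neg_apply, norm_neg, (hf x hx).2]⟩

omit [DecidableEq J] in
theorem DegB_chi {f : E J → ℍ} (hf : Adm f) (p o : U) {ε : ℝ} (hε : 0 < ε) :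
    ∃ f' : E J → ℍ, Adm f' ∧ DegB_Hom f f' ∧
      ∀ x, IsUnitPt x → ε ≤ ‖f x - (p : ℍ)‖ → f' x = (o : ℍ) := by
  obtain ⟨χ, h1, h2, h3⟩ := exists_chi p o hε
  refine ⟨fun x => χ (1, f x), fun x hx => ⟨?_, (h1 1 _ (hf x hx).2).2⟩,
    ⟨fun q => χ (q.1, f q.2), fun t x hx => ⟨?_, (h1 t _ (hf x hx).2).2⟩,
      fun x hx => h2 _ (hf x hx).2, fun _ _ => rfl⟩, fun x hx h => h3 _ (hf x hx).2 h⟩
  · exact (h1 1 _ (hf x hx).2).1.comp x (contDiffAt_const.prodMk (hf x hx).1)
  · exact (h1 t _ (hf x hx).2).1.comp (t, x)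
      (contDiffAt_fst.prodMk ((hf x hx).1.comp (t, x) contDiffAt_snd))

theorem DegB_vanish {φ : E J → ℝ} (hφ : Bump φ (1 / 2)) {W : J → E J → ℍ} (hW : ∀ k, Adm (W k))
    {x : E J} {j : J} (h : W j (nrm x) = -1) : φ (hat W x) = 0 := by
  by_contra h0
  have h1 := hφ.2 _ h0
  have h2 := (hat_small hW h1).2.2 j
  have h3 : (-1 - 1 : ℍ) = (-2 : ℝ) • (1 : ℍ) := by
    rw [neg_smul, two_smul]; abel
  rw [h, h3, norm_smul, norm_one] at h2
  norm_num at h2
  linarith

omit [Fintype J] in
theorem DegB_update {P : (E J → ℍ) → Prop} {W : J → E J → ℍ} (hW : ∀ k, P (W k)) (k : J)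
    {f : E J → ℍ} (hf : P f) (j : J) : P (Function.update W k f j) := by
  by_cases h : j = k
  · subst h; rwa [Function.update_self]
  · rw [Function.update_of_ne h]; exact hW j

theorem DegB_update₂ {W W' : J → E J → ℍ} (hW : ∀ k, DegB_Hom (W k) (W' k)) (k : J)
    {f f' : E J → ℍ} (hf : DegB_Hom f f') (j : J) :
    DegB_Hom (Function.update W k f j) (Function.update W' k f' j) := by
  by_cases h : j = k
  · subst h; rwa [Function.update_self, Function.update_self]
  · rw [Function.update_of_ne h, Function.update_of_ne h]; exact hW j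

theorem DegB_loc {φ : E J → ℝ} (W : J → E J → ℍ) (k : J) {G G' : E J → ℍ} {x : E J}
    (h : ∀ᶠ x' in 𝓝 x, G (nrm x') = G' (nrm x')) :
    φ (hat (Function.update W k G) x) * (fderiv ℝ (hat (Function.update W k G)) x).det =
      φ (hat (Function.update W k G') x) * (fderiv ℝ (hat (Function.update W k G')) x).det := by
  have : hat (Function.update W k G) =ᶠ[𝓝 x] hat (Function.update W k G') := by
    filter_upwards [h] with x' hx'
    funext j
    by_cases hj : j = k
    · subst hj
      simp only [hat, Function.update_self, hx']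
    · simp only [hat, Function.update_of_ne hj]
  rw [this.fderiv_eq, this.eq_of_nhds]

theorem DegB_ev {f : E J → ℍ} (hf : Adm f) {x : E J} (hx : ∀ j, x j ≠ 0) {c : ℍ} {ε : ℝ}
    (h : ε < ‖f (nrm x) - c‖) : ∀ᶠ x' in 𝓝 x, IsUnitPt (nrm x') ∧ ε ≤ ‖f (nrm x') - c‖ := by
  have h1 : ∀ᶠ x' in 𝓝 x, ∀ j, x' j ≠ 0 :=
    Filter.eventually_all.2 fun j => (continuous_apply j).continuousAt.eventually_ne (hx j)
  have h2 : ContinuousAt (fun x' => ‖f (nrm x') - c‖) x :=
    (((hf _ (nrm_unit hx)).1.comp x (nrm_contDiffAt hx)).continuousAt.sub continuousAt_const).norm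
  filter_upwards [h1, continuousAt_const.eventually_lt h2 h] with x' h3 h4
  exact ⟨nrm_unit h3, h4.le⟩

/-- Additivity.  Take `y, p, ε` from `exists_missing` for `update W k f` and `g`.  By `exists_chi`
and `Deg_homotopy` replace `W j` (`j ≠ k`) by `χ_j ∘ W j` (constant `-1` off the `ε`-ball at
`y j`), `f` by `χ ∘ f` (constant `1` off the ball at `y k`) and `g` by `χ' ∘ g` (constant `-1` off
the ball at `p`); and `f ~ -(χ ∘ f)` (`exists_path (-1)`).  With `F = χ f * χ' g`,
`F₁ = -(χ f)`, `F₂ = χ' g` in slot `k` the integrands satisfy `I F = I F₁ + I F₂` pointwise: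
if some other slot is `-1` all vanish (`hat_small`); where `χ' g = -1` locally, `F = F₁` locally
and `I F₂ = 0`; where `χ f = 1` locally, `F = F₂` locally and `I F₁ = 0`. -/
theorem Deg_mul {φ : E J → ℝ} (hφ : Bump φ (1 / 2)) {W : J → E J → ℍ} (hW : ∀ k, Adm (W k))
    (k : J) {f g : E J → ℍ} (hf : Adm f) (hg : Adm g) :
    Deg φ (Function.update W k (f * g)) =
      Deg φ (Function.update W k f) + Deg φ (Function.update W k g) := by
  obtain ⟨y, p, ε, hε, hmiss⟩ := exists_missing (DegB_update hW k hf) hg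
  choose W' a1 a2 a3 using fun j => DegB_chi (hW j) (y j) (-1) hε
  obtain ⟨f', f1, f2, f3⟩ := DegB_chi hf (y k) 1 hε
  obtain ⟨g', g1, g2, g3⟩ := DegB_chi hg p (-1) hε
  have b0 := DegB_update a1 k (f1.mul g1)
  have b1 := DegB_update a1 k (DegB_adm_neg f1)
  have b2 := DegB_update a1 k g1
  rw [DegB_congr hφ (DegB_update₂ a2 k (DegB_mul f2 g2)), DegB_congr hφ (DegB_update₂ a2 k f2),
    DegB_congr hφ (DegB_update₂ (fun j => DegB_refl (a1 j)) k (DegB_neg f1)),
    DegB_congr hφ (DegB_update₂ a2 k g2)]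
  unfold Deg
  rw [← integral_add (Deg_integrable hφ b1) (Deg_integrable hφ b2)]
  refine integral_congr_ae (Filter.Eventually.of_forall fun x => ?_)
  simp only
  by_cases hx : ∀ j, x j ≠ 0
  swap
  · have key : ∀ V : J → E J → ℍ, (∀ j, Adm (V j)) → φ (hat V x) = 0 := by
      intro V hV
      by_contra h0
      apply hx
      intro j hj
      have := ((hat_small hV (hφ.2 _ h0)).1 j).1
      rw [hj, norm_zero] at this
      linarith
    rw [key _ b0, key _ b1, key _ b2]
    ring
  have hz := nrm_unit hx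
  rcases hmiss _ hz with ⟨j, hj⟩ | hp
  · by_cases hjk : j = k
    · subst hjk
      rw [Function.update_self] at hj
      have hev := DegB_ev hf hx hj
      rw [DegB_vanish hφ b1 (j := j) (by
        rw [Function.update_self, Pi.neg_apply, f3 _ hz hj.le]; rfl), zero_mul, zero_add]
      apply DegB_loc
      filter_upwards [hev] with x' hx'
      rw [Pi.mul_apply, f3 _ hx'.1 hx'.2]
      exact one_mul _
    · rw [Function.update_of_ne hjk] at hj
      have key : ∀ G : E J → ℍ, (∀ i, Adm (Function.update W' k G i)) →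
          φ (hat (Function.update W' k G) x) = 0 := fun G hG =>
        DegB_vanish hφ hG (j := j) (by rw [Function.update_of_ne hjk, a3 j _ hz hj.le]; rfl)
      rw [key _ b0, key _ b1, key _ b2]
      ring
  · have hev := DegB_ev hg hx hp
    rw [DegB_vanish hφ b2 (j := k) (by rw [Function.update_self, g3 _ hz hp.le]; rfl), zero_mul,
      add_zero]
    apply DegB_loc
    filter_upwards [hev] with x' hx'
    rw [Pi.mul_apply, g3 _ hx'.1 hx'.2]
    exact mul_neg_one _

/-- Two equal slots: deform one of them to its negative; then the integrand vanishes. -/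
theorem Deg_eq_zero {φ : E J → ℝ} (hφ : Bump φ (1 / 2)) {W : J → E J → ℍ} (hW : ∀ k, Adm (W k))
    {j k : J} (hjk : j ≠ k) (h : W j = W k) : Deg φ W = 0 := by
  have b := DegB_update hW j (DegB_adm_neg (hW j))
  have e := DegB_congr hφ (DegB_update₂ (fun i => DegB_refl (hW i)) j (DegB_neg (hW j)))
  rw [Function.update_eq_self] at e
  rw [e]
  unfold Deg
  refine integral_eq_zero_of_ae (Filter.Eventually.of_forall fun x => ?_)
  have : φ (hat (Function.update W j (-W j)) x) = 0 := by
    by_contra h0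
    have h1 := hφ.2 _ h0
    have h2 := (hat_small b h1).2.2 j
    have h3 := (hat_small b h1).2.2 k
    rw [Function.update_self, Pi.neg_apply, h] at h2
    rw [Function.update_of_ne hjk.symm] at h3
    have h4 := norm_add_le (-W k (nrm x) - 1) (W k (nrm x) - 1)
    have h5 : (-W k (nrm x) - 1) + (W k (nrm x) - 1) = (-2 : ℝ) • (1 : ℍ) := by
      rw [neg_smul, two_smul]; abel
    rw [h5, norm_smul, norm_one] at h4
    norm_num at h4
    rw [h] at h1 h3
    linarith
  simp only [this, zero_mul, Pi.zero_apply]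

end Crest.Agent.R197
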