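import Crest.Agent.R197.DegB

/-! Row 197: the degree of a word map. -/

set_option autoImplicit false

namespace Crest.Agent.R197

open scoped Quaternion Topology
open MeasureTheory

open Classical in
/-- Normalisation to a unit quaternion. -/
noncomputable def toU (q : ℍ) : U :=
  if h : q = 0 then 1 else ⟨‖q‖⁻¹ • q, by
    simp [norm_smul, norm_ne_zero_iff.2 h]⟩

theorem toU_coe (u : U) : toU (u : ℍ) = u := by
  have h1 : ‖(u : ℍ)‖ = 1 := by simp
  have h0 : (u : ℍ) ≠ 0 := by
    intro h; rw [h] at h1; simp at h1
  unfold toU
  rw [dif_neg h0]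
  ext1
  simp [h1]

/-- Evaluation of a word at unit quaternions. -/
noncomputable def evU {ι : Type} (σ : ι → U) (w : FreeGroup ι) : ℍ := (FreeGroup.lift σ w : U)

/-- Evaluation of a word in an additive character. -/
def lin {ι : Type} (α : ι → ℝ) (w : FreeGroup ι) : ℝ :=
  Multiplicative.toAdd (FreeGroup.lift (fun i => Multiplicative.ofAdd (α i)) w)

variable {J : Type} [Fintype J] [DecidableEq J]

/-- The word map. -/
noncomputable def ev (w : FreeGroup J) (x : E J) : ℍ := evU (fun j => toU (x j)) w

/-- The matrix of exponent sums. -/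
def abM (r : J → FreeGroup J) : Matrix J J ℝ := Matrix.of fun k j => lin (Pi.single j 1) (r k)

theorem ev_mul (w w' : FreeGroup J) : ev (w * w') = ev w * ev w' := by
  ext1 x
  simp [ev, evU]

theorem ev_adm_inv (u : U) : ((u⁻¹ : U) : ℍ) = star (u : ℍ) := by
  have h1 : ‖(u : ℍ)‖ = 1 := by simp
  have h2 : (u : ℍ) * star (u : ℍ) = 1 := by
    rw [Quaternion.self_mul_star, Quaternion.normSq_eq_norm_mul_self, h1]; simp
  exact (eq_inv_of_mul_eq_one_right h2).symm

theorem ev_of (j : J) {x : E J} (hx : x j ≠ 0) : ev (FreeGroup.of j) x = nrm x j := by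
  simp [ev, evU, toU, hx, nrm]

theorem ev_adm_of (j : J) : Adm (ev (FreeGroup.of j)) := by
  intro x hx
  have h0 : ∀ j, x j ≠ 0 := fun j h => by
    have := hx j; rw [h] at this; simp at this
  refine ⟨?_, by rw [ev_of j (h0 j)]; exact nrm_unit h0 j⟩
  have h1 : ContDiffAt ℝ 2 (fun y : E J => nrm y j) x :=
    contDiffAt_pi.1 (nrm_contDiffAt h0) j
  refine h1.congr_of_eventuallyEq ?_
  filter_upwards [((continuous_apply j).continuousAt (x := x)).eventually_ne (h0 j)] with y hy
  exact ev_of j hy

theorem ev_adm (w : FreeGroup J) : Adm (ev w) := by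
  induction w using FreeGroup.induction_on with
  | C1 =>
    intro x _
    have : ev (1 : FreeGroup J) = fun _ => (1 : ℍ) := by ext1 y; simp [ev, evU]
    rw [this]
    exact ⟨contDiffAt_const, norm_one⟩
  | of j => exact ev_adm_of j
  | inv_of j _ =>
    intro x hx
    obtain ⟨h1, h2⟩ := ev_adm_of j x hx
    let st : ℍ →L[ℝ] ℍ := LinearMap.toContinuousLinearMap
      { toFun := star
        map_add' := star_add
        map_smul' := fun c q => by ext <;> simp }
    have : ev (FreeGroup.of j)⁻¹ = fun y => st (ev (FreeGroup.of j) y) := by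
      ext1 y
      simp only [ev, evU, map_inv]
      exact ev_adm_inv _
    rw [this]
    exact ⟨st.contDiff.contDiffAt.comp x h1, (norm_star _).trans h2⟩
  | mul a b ha hb => rw [ev_mul]; exact ha.mul hb

theorem ev_coe (w : FreeGroup J) (σ : J → U) : ev w (fun j => (σ j : ℍ)) = evU σ w := by
  simp only [ev, toU_coe]

theorem Deg_id_eventually {x : E J} (h : ∀ j, 1 / 2 < ‖x j‖) :
    hat (fun k : J => ev (FreeGroup.of k)) =ᶠ[𝓝 x] fun y => y - 1 := by
  have : ∀ᶠ y in 𝓝 x, ∀ j, 1 / 2 < ‖y j‖ := Filter.eventually_all.2 fun j =>
    (continuousAt_const.eventually_lt (continuous_apply j).norm.continuousAt (h j))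
  filter_upwards [this] with y hy
  have h0 : ∀ j, y j ≠ 0 := fun j hj => by
    have := hy j; rw [hj, norm_zero] at this; linarith
  have hc : cut y = 1 := Finset.prod_eq_one fun j _ =>
    Real.smoothTransition.one_of_one_le (by nlinarith [hy j])
  ext1 k
  have h1 : ‖nrm y k‖ = 1 := nrm_unit h0 k
  have h2 : nrm y k ≠ 0 := fun h => by rw [h] at h1; simp at h1
  have h3 : nrm (nrm y) k = nrm y k := by
    change ‖nrm y k‖⁻¹ • nrm y k = _
    rw [h1]; simp
  simp only [hat, hc, one_mul, Pi.sub_apply, Pi.one_apply]
  rw [ev_of k h2, h3, nrm, smul_smul, mul_inv_cancel₀ (norm_ne_zero_iff.2 (h0 k)), one_smul]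

/-- The identity has degree one: near a point where either side is non-zero,
`hat (ev ∘ of) x = x - 1`. -/
theorem Deg_id {φ : E J → ℝ} (hφ : Bump φ (1 / 2)) :
    Deg φ (fun k : J => ev (FreeGroup.of k)) = ∫ y, φ y ∂(μE J) := by
  have hW : ∀ k : J, Adm (ev (FreeGroup.of k)) := fun k => ev_adm _
  rw [← integral_sub_right_eq_self φ (1 : E J), Deg]
  refine integral_congr_ae (Filter.Eventually.of_forall fun x => ?_)
  by_cases h : ∀ j, 1 / 2 < ‖x j‖
  · have he := Deg_id_eventually h
    have hf : fderiv ℝ (hat fun k : J => ev (FreeGroup.of k)) x = ContinuousLinearMap.id ℝ _ := by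
      rw [he.fderiv_eq]
      exact ((hasFDerivAt_id x).sub_const 1).fderiv
    simp only [hf, he.eq_of_nhds]
    simp [ContinuousLinearMap.det]
  · have h1 : φ (hat (fun k : J => ev (FreeGroup.of k)) x) = 0 := by
      by_contra hne
      exact h fun j => ((hat_small hW (hφ.2 _ hne)).1 j).1
    have h2 : φ (x - 1) = 0 := by
      by_contra hne
      refine h fun j => ?_
      have h3 : ‖x j - 1‖ < 1 / 2 := (norm_le_pi_norm (x - 1) j).trans_lt (hφ.2 _ hne)
      have h4 : ‖(1 : ℍ)‖ - ‖x j‖ ≤ ‖1 - x j‖ := norm_sub_norm_le _ _
      rw [norm_one, norm_sub_rev] at h4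
      linarith
    simp only [h1, h2, zero_mul]

theorem Deg_words_alt (D : (J → FreeGroup J) → ℝ)
    (hm : ∀ r k a b, D (Function.update r k (a * b)) =
      D (Function.update r k a) + D (Function.update r k b))
    (ha : ∀ r j k, j ≠ k → r j = r k → D r = 0) (h1 : D (fun k => FreeGroup.of k) = 0)
    (r : J → FreeGroup J) : D r = 0 := by
  have hswap : ∀ (r : J → FreeGroup J) (j k : J), j ≠ k → D (r ∘ Equiv.swap j k) = -D r := by
    intro r j k hjk
    let β : FreeGroup J → FreeGroup J → ℝ := fun a b =>
      D (Function.update (Function.update r j a) k b)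
    have b1 : ∀ a b b', β a (b * b') = β a b + β a b' := fun a b b' => hm _ _ _ _
    have b2 : ∀ a a' b, β (a * a') b = β a b + β a' b := fun a a' b => by
      simp only [β]
      rw [Function.update_comm hjk, hm, Function.update_comm hjk.symm,
        Function.update_comm hjk.symm]
    have b3 : ∀ a, β a a = 0 := fun a => ha _ j k hjk (by simp [Function.update_of_ne hjk])
    have e1 : β (r j) (r k) = D r := by simp [β]
    have e2 : β (r k) (r j) = D (r ∘ Equiv.swap j k) := by
      simp only [β]
      congr 1
      ext1 i
      by_cases hk : i = k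
      · subst hk; simp
      · by_cases hj : i = j
        · subst hj; simp [Function.update_of_ne hk]
        · simp [Function.update_of_ne hk, Function.update_of_ne hj,
            Equiv.swap_apply_of_ne_of_ne hj hk]
    have := b3 (r j * r k)
    rw [b1, b2, b2, b3, b3, e1, e2] at this
    linarith
  have hperm : ∀ σ : Equiv.Perm J, D (fun k => FreeGroup.of (σ k)) = 0 := by
    intro σ
    induction σ using Equiv.Perm.swap_induction_on' with
    | one => exact h1
    | mul_swap f x y hxy ih =>
      have := hswap (fun k => FreeGroup.of (f k)) x y hxy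
      rw [ih, neg_zero] at this
      exact this
  have hgen : ∀ f : J → J, D (fun k => FreeGroup.of (f k)) = 0 := by
    intro f
    by_cases hf : Function.Injective f
    · exact hperm (Equiv.ofBijective f (Finite.injective_iff_bijective.1 hf))
    · simp only [Function.Injective, not_forall] at hf
      obtain ⟨j, k, hjk, hne⟩ := hf
      exact ha _ j k hne (by simp only [hjk])
  have key : ∀ (s : Finset J) (r : J → FreeGroup J),
      (∀ k ∉ s, ∃ j, r k = FreeGroup.of j) → D r = 0 := by
    intro s
    induction s using Finset.induction_on with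
    | empty =>
      intro r hr
      choose f hf using fun k => hr k (Finset.notMem_empty k)
      rw [show r = fun k => FreeGroup.of (f k) from funext hf]
      exact hgen f
    | insert k s _ ih =>
      intro r hr
      have h0 : D (Function.update r k 1) = 0 := by
        have := hm r k 1 1
        rw [mul_one] at this
        linarith
      have hof : ∀ j, D (Function.update r k (FreeGroup.of j)) = 0 := fun j => ih _ fun i hi => by
        by_cases h : i = k
        · subst h; exact ⟨j, by simp⟩
        · rw [Function.update_of_ne h]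
          exact hr i (by simp [h, hi])
      have hw : ∀ w, D (Function.update r k w) = 0 := by
        intro w
        induction w using FreeGroup.induction_on with
        | C1 => exact h0
        | of j => exact hof j
        | inv_of j hj =>
          have := hm r k (FreeGroup.of j) (FreeGroup.of j)⁻¹
          rw [mul_inv_cancel, h0, hof] at this
          linarith
        | mul a b ha hb => rw [hm, ha, hb, add_zero]
      simpa using hw (r k)
  exact key Finset.univ r fun k hk => absurd (Finset.mem_univ k) hk

/-- `r ↦ Deg φ (ev ∘ r)` is additive in each slot (`Deg_mul`) and vanishes when two slots agree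
(`Deg_eq_zero`); so it factors through an alternating `ℤ`-multilinear map on the abelianisation. -/
theorem Deg_words {φ : E J → ℝ} (hφ : Bump φ (1 / 2)) (r : J → FreeGroup J) :
    Deg φ (fun k => ev (r k)) = (abM r).det * ∫ y, φ y ∂(μE J) := by
  have hone : abM (fun k : J => FreeGroup.of k) = 1 := by
    ext k j
    simp [abM, lin, Pi.single_apply, Matrix.one_apply]
  have hupd : ∀ (r : J → FreeGroup J) (k : J) (w : FreeGroup J), abM (Function.update r k w) =
      (abM r).updateRow k fun j => lin (Pi.single j 1) w := by
    intro r k w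
    ext i j
    by_cases h : i = k
    · subst h; simp [abM]
    · simp [abM, Matrix.updateRow_ne h, Function.update_of_ne h]
  have hev : ∀ (r : J → FreeGroup J) (k : J) (w : FreeGroup J),
      (fun i => ev (Function.update r k w i)) = Function.update (fun i => ev (r i)) k (ev w) := by
    intro r k w
    ext1 i
    by_cases h : i = k
    · subst h; simp
    · simp [Function.update_of_ne h]
  have := Deg_words_alt
    (fun r => Deg φ (fun k => ev (r k)) - (abM r).det * ∫ y, φ y ∂(μE J))
    (fun r k a b => by
      have h1 : (fun j : J => lin (Pi.single j 1) (a * b)) =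
          (fun j => lin (Pi.single j 1) a) + fun j => lin (Pi.single j 1) b := by
        ext j; simp [lin]
      simp only [hev, hupd]
      rw [ev_mul, Deg_mul hφ (fun k => ev_adm _) k (ev_adm a) (ev_adm b), h1,
        Matrix.det_updateRow_add]
      ring)
    (fun r j k hjk h => by
      have h1 : (abM r).det = 0 := Matrix.det_zero_of_row_eq hjk (by ext i; simp [abM, h])
      simp only [h1]
      rw [Deg_eq_zero hφ (fun k => ev_adm _) hjk (by simp only [h])]
      simp)
    (by simp only [hone, Deg_id hφ]; simp) r
  exact sub_eq_zero.1 this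

end Crest.Agent.R197
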