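import Crest.Agent.R197.DegC

/-! Row 197: solving word equations by continuation (square case). -/

set_option autoImplicit false

namespace Crest.Agent.R197

open scoped Quaternion Topology
open MeasureTheory

variable {J : Type} [Fintype J] [DecidableEq J]

/-- The identity on real parts, `B` on imaginary parts. -/
noncomputable def That (B : Matrix J J ℝ) : E J →L[ℝ] E J :=
  LinearMap.toContinuousLinearMap
    { toFun := fun y k => ((y k).re : ℍ) + ∑ j, B k j • (y j).im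
      map_add' := fun y z => by
        ext1 k; simp [Finset.sum_add_distrib]; abel
      map_smul' := fun c y => by
        ext1 k
        simp only [Pi.smul_apply, Quaternion.re_smul, Quaternion.im_smul, RingHom.id_apply,
          smul_add, Finset.smul_sum, smul_eq_mul]
        congr 1
        · ext <;> simp
        · exact Finset.sum_congr rfl fun j _ => smul_comm _ _ _ }

omit [DecidableEq J] in
theorem degD_That_apply (B : Matrix J J ℝ) (y : E J) (k : J) :
    That B y k = ((y k).re : ℍ) + ∑ j, B k j • (y j).im := rfl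

omit [Fintype J] in
theorem degD_sum (s : Finset J) (b : J → ℝ) (q : J → ℍ) :
    (∑ j ∈ s, b j • (q j).im).re = 0 ∧ (∑ j ∈ s, b j • (q j).im).imI = ∑ j ∈ s, b j * (q j).imI ∧
      (∑ j ∈ s, b j • (q j).im).imJ = ∑ j ∈ s, b j * (q j).imJ ∧
      (∑ j ∈ s, b j • (q j).im).imK = ∑ j ∈ s, b j * (q j).imK := by
  induction s using Finset.induction_on with
  | empty => simp
  | insert a s ha ih => simp [Finset.sum_insert ha, ih]

theorem That_injective {B : Matrix J J ℝ} (hB : ∀ v, B.mulVec v = 0 → v = 0) :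
    Function.Injective (That B) := by
  refine (injective_iff_map_eq_zero (That B)).2 fun y hy => ?_
  have h : ∀ k, ((y k).re : ℍ) + ∑ j, B k j • (y j).im = 0 := fun k => congrFun hy k
  have h0 : ∀ k, (y k).re = 0 := fun k => by
    simpa [(degD_sum Finset.univ (B k) y).1] using congrArg QuaternionAlgebra.re (h k)
  have h1 := hB (fun j => (y j).imI) (funext fun k => by
    simpa [(degD_sum Finset.univ (B k) y).2.1, Matrix.mulVec, dotProduct] using
      congrArg QuaternionAlgebra.imI (h k))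
  have h2 := hB (fun j => (y j).imJ) (funext fun k => by
    simpa [(degD_sum Finset.univ (B k) y).2.2.1, Matrix.mulVec, dotProduct] using
      congrArg QuaternionAlgebra.imJ (h k))
  have h3 := hB (fun j => (y j).imK) (funext fun k => by
    simpa [(degD_sum Finset.univ (B k) y).2.2.2, Matrix.mulVec, dotProduct] using
      congrArg QuaternionAlgebra.imK (h k))
  funext k
  exact Quaternion.ext _ _ (h0 k) (congrFun h1 k) (congrFun h2 k) (congrFun h3 k)

/-- The linearisation hypothesis. -/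
def LinH {ι : Type} (r W : J → FreeGroup ι) (B : Matrix J J ℝ) (C : ℝ) : Prop :=
  ∀ (σ : ι → U) (ε : ℝ), 0 ≤ ε → ε ≤ 1 → (∀ j, ‖evU σ (r j) - 1‖ ≤ ε) →
    ∀ k, ‖evU σ (W k) - 1 - ∑ j, B k j • (evU σ (r j) - 1)‖ ≤ C * ε ^ 2

theorem degD_unit {u : ℍ} (hu : ‖u‖ = 1) {e : ℝ} (he : ‖u - 1‖ ≤ 2 * e) :
    |u.re - 1| ≤ 2 * e ^ 2 ∧ ‖u.im‖ ≤ 2 * e := by
  have n1 : ∀ q : ℍ, ‖q‖ ^ 2 = q.re ^ 2 + q.imI ^ 2 + q.imJ ^ 2 + q.imK ^ 2 := fun q => by
    rw [sq, ← Quaternion.normSq_eq_norm_mul_self, Quaternion.normSq_def']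
  have h1 := n1 u
  have h2 := n1 (u - 1)
  have h3 := n1 u.im
  have h4 : ‖u - 1‖ ^ 2 ≤ (2 * e) ^ 2 := pow_le_pow_left₀ (norm_nonneg _) he 2
  rw [hu] at h1
  simp only [Quaternion.re_sub, Quaternion.imI_sub, Quaternion.imJ_sub, Quaternion.imK_sub,
    Quaternion.re_one, Quaternion.imI_one, Quaternion.imJ_one, Quaternion.imK_one, sub_zero] at h2
  simp only [Quaternion.re_im, Quaternion.imI_im, Quaternion.imJ_im, Quaternion.imK_im] at h3
  refine ⟨abs_le.2 ⟨by nlinarith, by nlinarith [sq_nonneg ‖u - 1‖]⟩, le_trans ?_ he⟩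
  exact (pow_le_pow_iff_left₀ (norm_nonneg _) (norm_nonneg _) two_ne_zero).1
    (by nlinarith [sq_nonneg (u.re - 1)])

/-- With `ρ_k = ‖x k‖`, `u_k = r_k (nrm x)`: `hat W x k = (ρ_k - 1) + (W_k - 1) + O(ε²)`,
`re (u - 1) = -‖u - 1‖² / 2`. -/
theorem hat_lin {r W : J → FreeGroup J} {B : Matrix J J ℝ} {C : ℝ} (h : LinH r W B C) :
    ∃ C' : ℝ, ∀ x, ‖hat (fun k => ev (r k)) x‖ < 1 / 2 →
      ‖hat (fun k => ev (W k)) x - That B (hat (fun k => ev (r k)) x)‖ ≤
        C' * ‖hat (fun k => ev (r k)) x‖ ^ 2 := by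
  refine ⟨6 * |C| + 3 + 7 * ∑ k, ∑ j, |B k j|, fun x hx => ?_⟩
  obtain ⟨h1, h2, h3⟩ := hat_small (fun k => ev_adm (r k)) hx
  have hc : cut x = 1 := h2.self_of_nhds
  have hu : IsUnitPt (nrm x) := nrm_unit fun j e => by
    have := (h1 j).1
    rw [e, norm_zero] at this
    linarith
  set e := ‖hat (fun k => ev (r k)) x‖ with he
  have he0 : 0 ≤ e := norm_nonneg _
  have hD := h (fun j => toU (nrm x j)) (2 * e) (by positivity) (by linarith) h3
  refine (pi_norm_le_iff_of_nonneg (by positivity)).2 fun k => ?_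
  have hDk : ‖ev (W k) (nrm x) - 1 - ∑ j, B k j • (ev (r j) (nrm x) - 1)‖ ≤ C * (2 * e) ^ 2 := hD k
  have hU := fun j => degD_unit (ev_adm (r j) _ hu).2 (h3 j)
  have e1 : (hat (fun k => ev (W k)) x - That B (hat (fun k => ev (r k)) x)) k =
      ‖x k‖ • (ev (W k) (nrm x) - 1 - ∑ j, B k j • (ev (r j) (nrm x) - 1)) -
        ‖x k‖ • (((ev (r k) (nrm x)).re - 1 : ℝ) : ℍ) +
        ∑ j, B k j • (‖x k‖ • (((ev (r j) (nrm x)).re - 1 : ℝ) : ℍ) +
          (‖x k‖ - ‖x j‖) • (ev (r j) (nrm x)).im) := by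
    rw [Pi.sub_apply, degD_That_apply]
    simp only [hat, hc, one_mul]
    have e2 : ∀ j, B k j • (‖x k‖ • (((ev (r j) (nrm x)).re - 1 : ℝ) : ℍ) +
        (‖x k‖ - ‖x j‖) • (ev (r j) (nrm x)).im) =
        ‖x k‖ • B k j • (ev (r j) (nrm x) - 1) - B k j • (‖x j‖ • ev (r j) (nrm x) - 1).im := by
      intro j
      ext <;> simp <;> ring
    have e3 : (((‖x k‖ • ev (r k) (nrm x) - 1).re : ℝ) : ℍ) =
        ‖x k‖ • (((ev (r k) (nrm x)).re - 1 : ℝ) : ℍ) + ‖x k‖ • (1 : ℍ) - 1 := by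
      ext <;> simp
      ring
    simp only [e2, e3, Finset.sum_sub_distrib, ← Finset.smul_sum, smul_sub]
    abel
  have hρ : ∀ j, ‖x j‖ ≤ 3 / 2 := fun j => by linarith [(abs_le.1 (h1 j).2).2]
  have b1 : ∀ j, ‖‖x k‖ • (((ev (r j) (nrm x)).re - 1 : ℝ) : ℍ)‖ ≤ 3 * e ^ 2 := fun j => by
    rw [norm_smul, norm_norm, Quaternion.norm_coe, Real.norm_eq_abs]
    calc _ ≤ 3 / 2 * (2 * e ^ 2) := mul_le_mul (hρ k) (hU j).1 (abs_nonneg _) (by norm_num)
      _ = _ := by ring
  have b2 : ∀ j, ‖(‖x k‖ - ‖x j‖) • (ev (r j) (nrm x)).im‖ ≤ 4 * e ^ 2 := fun j => by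
    rw [norm_smul, Real.norm_eq_abs]
    have : |‖x k‖ - ‖x j‖| ≤ 2 * e := by
      have a1 := abs_le.1 (h1 j).2
      have a2 := abs_le.1 (h1 k).2
      exact abs_le.2 ⟨by linarith [a1.2, a2.1], by linarith [a1.1, a2.2]⟩
    calc _ ≤ 2 * e * (2 * e) := mul_le_mul this (hU j).2 (norm_nonneg _) (by positivity)
      _ = _ := by ring
  have b3 : ‖‖x k‖ • (ev (W k) (nrm x) - 1 - ∑ j, B k j • (ev (r j) (nrm x) - 1))‖ ≤
      6 * |C| * e ^ 2 := by
    rw [norm_smul, norm_norm]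
    calc _ ≤ 3 / 2 * (|C| * (2 * e) ^ 2) :=
          mul_le_mul (hρ k) (hDk.trans (mul_le_mul_of_nonneg_right (le_abs_self C) (by positivity)))
            (norm_nonneg _) (by norm_num)
      _ = _ := by ring
  have b4 : ‖∑ j, B k j • (‖x k‖ • (((ev (r j) (nrm x)).re - 1 : ℝ) : ℍ) +
      (‖x k‖ - ‖x j‖) • (ev (r j) (nrm x)).im)‖ ≤ (7 * ∑ k, ∑ j, |B k j|) * e ^ 2 := by
    refine (norm_sum_le _ _).trans ?_
    calc _ ≤ ∑ j, |B k j| * (7 * e ^ 2) := Finset.sum_le_sum fun j _ => by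
          rw [norm_smul, Real.norm_eq_abs]
          refine mul_le_mul_of_nonneg_left ((norm_add_le _ _).trans ?_) (abs_nonneg _)
          linarith [b1 j, b2 j]
      _ = (∑ j, |B k j|) * (7 * e ^ 2) := (Finset.sum_mul _ _ _).symm
      _ ≤ (∑ k, ∑ j, |B k j|) * (7 * e ^ 2) := by
          refine mul_le_mul_of_nonneg_right ?_ (by positivity)
          exact Finset.single_le_sum (f := fun k => ∑ j, |B k j|)
            (fun i _ => Finset.sum_nonneg fun j _ => abs_nonneg _) (Finset.mem_univ k)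
      _ = _ := by ring
  rw [e1]
  refine (norm_add_le _ _).trans ?_
  have := norm_sub_le (‖x k‖ • (ev (W k) (nrm x) - 1 - ∑ j, B k j • (ev (r j) (nrm x) - 1)))
    (‖x k‖ • (((ev (r k) (nrm x)).re - 1 : ℝ) : ℍ))
  linarith [b1 k]

/-- A smooth plateau for the sup norm (a product of bumps in the coordinates). -/
theorem exists_plateau {a b : ℝ} (ha : 0 < a) (hab : a < b) : ∃ ξ : E J → ℝ, ContDiff ℝ 2 ξ ∧
    (∀ y, ‖y‖ ≤ a → ξ y = 1) ∧ ∀ y, b ≤ ‖y‖ → ξ y = 0 := by
  have hd : 0 < b ^ 2 - a ^ 2 := by nlinarith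
  refine ⟨fun y => ∏ j, Real.smoothTransition ((b ^ 2 - ‖y j‖ ^ 2) / (b ^ 2 - a ^ 2)), ?_,
    fun y hy => Finset.prod_eq_one fun j _ => Real.smoothTransition.one_of_one_le ?_,
    fun y hy => ?_⟩
  · refine contDiff_prod fun j _ => Real.smoothTransition.contDiff.comp ?_
    exact (contDiff_const.sub ((contDiff_norm_sq ℝ).comp (contDiff_apply ℝ ℍ j))).div_const _
  · have := pow_le_pow_left₀ (norm_nonneg _) ((norm_le_pi_norm y j).trans hy) 2
    rw [le_div_iff₀ hd]
    linarith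
  · obtain ⟨j, hj⟩ : ∃ j, b ≤ ‖y j‖ := by
      by_contra hn
      push Not at hn
      exact absurd ((pi_norm_lt_iff (ha.trans hab)).2 hn) (not_lt.2 hy)
    refine Finset.prod_eq_zero (Finset.mem_univ j) (Real.smoothTransition.zero_of_nonpos ?_)
    have := pow_le_pow_left₀ (ha.trans hab).le hj 2
    exact div_nonpos_of_nonpos_of_nonneg (by linarith) hd.le

/-- The local degree at the flat solutions is not zero.  Write `R = hat (ev ∘ r)`,
`F = hat (ev ∘ W)`.  Take a plateau `ξ'` at a tiny scale `δ'`.  For small `φ`,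
`(ξ ∘ R - ξ' ∘ R) * φ ∘ F = 0` (compactness and `h0`); `persist` along
`(1 - t) F + t (That B ∘ R)` (no zero where `0 < ‖R‖ ≤ 2 δ'`, by `hat_lin` and
`That_injective`); finally `ξ' ∘ R = 1` on the support of `φ ∘ That B ∘ R`, and `Deg_words` for
`φ ∘ That B` gives `det (That B) * det (abM r) * ∫ φ ∘ That B ≠ 0`. -/
theorem loc_deg_ne {r W : J → FreeGroup J} (hr : (abM r).det ≠ 0) {B : Matrix J J ℝ}
    (hB : ∀ v, B.mulVec v = 0 → v = 0) {C : ℝ} (h : LinH r W B C) {ξ : E J → ℝ}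
    (hξ : ContDiff ℝ 2 ξ) {a b : ℝ} (ha : 0 < a) (hb : b < 1 / 2)
    (h1 : ∀ y, ‖y‖ ≤ a → ξ y = 1) (h2 : ∀ y, b ≤ ‖y‖ → ξ y = 0)
    (h0 : ∀ x, hat (fun k => ev (W k)) x = 0 → ‖hat (fun k => ev (r k)) x‖ ≤ b →
      hat (fun k => ev (r k)) x = 0) :
    ∃ ε > 0, ∀ φ : E J → ℝ, Bump φ ε → (∀ y, 0 ≤ φ y) → φ 0 = 1 →
      ∫ x, ξ (hat (fun k => ev (r k)) x) * φ (hat (fun k => ev (W k)) x) *
        (fderiv ℝ (hat fun k => ev (W k)) x).det ∂(μE J) ≠ 0 := by
  have hRa : ∀ k, Adm (ev (r k)) := fun k => ev_adm _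
  have hR : ContDiff ℝ 2 (hat fun k => ev (r k)) := hat_contDiff hRa
  have hF : ContDiff ℝ 2 (hat fun k => ev (W k)) := hat_contDiff fun k => ev_adm _
  have hbd : ∀ x, ‖hat (fun k => ev (r k)) x‖ < 1 / 2 → x ∈ Metric.closedBall (0 : E J) 2 := by
    intro x h1
    have h2 := (hat_small hRa h1).1
    rw [mem_closedBall_zero_iff, pi_norm_le_iff_of_nonneg (by norm_num)]
    intro j
    have h3 := (abs_le.1 (h2 j).2).2
    linarith
  have hdeg := fun (φ : E J → ℝ) (hφ : Bump φ (1 / 2)) => Deg_words hφ r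
  unfold Deg at hdeg
  obtain ⟨C', hC'⟩ := hat_lin h
  have hTi := That_injective hB
  generalize hat (fun k => ev (r k)) = R at *
  generalize hat (fun k => ev (W k)) = F at *
  generalize That B = T at *
  have hker : LinearMap.ker (T : E J →ₗ[ℝ] E J) = ⊥ := LinearMap.ker_eq_bot.2 hTi
  obtain ⟨K, hK, hanti⟩ := LinearMap.exists_antilipschitzWith _ hker
  have hK' : (0 : ℝ) < K := hK
  have hT : ∀ y, ‖y‖ ≤ K * ‖T y‖ := fun y => by
    simpa using hanti.le_mul_dist y 0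
  have hdet : T.det ≠ 0 := fun h0 => (LinearMap.det_eq_zero_iff_ker_ne_bot.1 h0) hker
  have hb0 : 0 < b := by
    by_contra hb0
    have e1 := h1 0 (by simpa using ha.le)
    have e2 := h2 0 (by simpa using hb0)
    linarith
  obtain ⟨δ, hδ, hδa, hδb, hδC⟩ : ∃ δ : ℝ, 0 < δ ∧ δ ≤ a ∧ 2 * δ ≤ b ∧ K * |C'| * (2 * δ) < 1 := by
    have hp : 0 < 2 * (K * |C'|) + 1 := by positivity
    refine ⟨min a (min (b / 2) (1 / (2 * (K * |C'|) + 1))), by positivity, min_le_left _ _, ?_, ?_⟩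
    · have := (min_le_right a _).trans (min_le_left (b / 2) (1 / (2 * (K * |C'|) + 1)))
      linarith
    · have h3 := (min_le_right a _).trans (min_le_right (b / 2) (1 / (2 * (K * |C'|) + 1)))
      rw [le_div_iff₀ hp] at h3
      have h4 : 0 < min a (min (b / 2) (1 / (2 * (K * |C'|) + 1))) := by positivity
      nlinarith
  obtain ⟨ξ', hξ', g1, g2⟩ := exists_plateau (J := J) hδ (show δ < 2 * δ by linarith)
  have hcpt : IsCompact {x | δ ≤ ‖R x‖ ∧ ‖R x‖ ≤ b} :=
    (isCompact_closedBall (0 : E J) 2).of_isClosed_subset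
      ((isClosed_le continuous_const hR.continuous.norm).inter
        (isClosed_le hR.continuous.norm continuous_const))
      fun x hx => hbd x (hx.2.trans_lt hb)
  obtain ⟨ε1, hε1, hle⟩ := hcpt.exists_forall_le' (f := fun x => ‖F x‖) (a := 0)
    hF.continuous.norm.continuousOn (by
      intro x hx
      rw [norm_pos_iff]
      intro hx0
      have := hx.1
      rw [h0 x hx0 hx.2, norm_zero] at this
      linarith)
  obtain ⟨ε2, hε2, hper⟩ := persist (fun p : ℝ × E J => (1 - p.1) • F p.2 + p.1 • T (R p.2))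
    (((contDiff_const.sub contDiff_fst).smul (hF.comp contDiff_snd)).add
      (contDiff_fst.smul (T.contDiff.comp (hR.comp contDiff_snd))))
    (fun x => ξ' (R x)) (hξ'.comp hR)
    (HasCompactSupport.intro (isCompact_closedBall (0 : E J) 2) fun x hx => g2 _ (by
      by_contra h3
      exact hx (hbd x (by linarith))))
    (by
      intro t ht x hx
      have hc : ContinuousAt (fun y => ‖R y‖) x := hR.continuous.norm.continuousAt
      rcases lt_or_ge ‖R x‖ δ with h3 | h3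
      · filter_upwards [hc.eventually (gt_mem_nhds h3)] with y hy
        rw [g1 _ hy.le, g1 _ h3.le]
      rcases lt_or_ge (2 * δ) ‖R x‖ with h4 | h4
      · filter_upwards [hc.eventually (lt_mem_nhds h4)] with y hy
        rw [g2 _ hy.le, g2 _ h4.le]
      exfalso
      have h5 : T (R x) = -((1 - t) • (F x - T (R x))) := by
        rw [eq_neg_iff_add_eq_zero, ← hx]
        module
      have h6 : ‖T (R x)‖ ≤ |C'| * ‖R x‖ ^ 2 := by
        calc ‖T (R x)‖ = (1 - t) * ‖F x - T (R x)‖ := by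
              conv_lhs => rw [h5]
              rw [norm_neg, norm_smul, Real.norm_of_nonneg (by linarith [ht.2])]
          _ ≤ ‖F x - T (R x)‖ := mul_le_of_le_one_left (norm_nonneg _) (by linarith [ht.1])
          _ ≤ C' * ‖R x‖ ^ 2 := hC' x (by linarith)
          _ ≤ _ := by gcongr; exact le_abs_self _
      have h7 : 0 < ‖R x‖ := hδ.trans_le h3
      have h8 : ‖R x‖ ≤ K * |C'| * (2 * δ) * ‖R x‖ := by
        calc ‖R x‖ ≤ K * (|C'| * ‖R x‖ ^ 2) := (hT _).trans (by gcongr)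
          _ = K * |C'| * ‖R x‖ * ‖R x‖ := by ring
          _ ≤ _ := by gcongr
      nlinarith)
  refine ⟨min ε1 (min ε2 (δ / K)), by positivity, fun φ hφ hφ0 hφ1 => ?_⟩
  have hsm : ∀ y, φ (T y) ≠ 0 → ‖y‖ < δ := fun y hy => by
    have h3 := (hφ.2 _ hy).trans_le ((min_le_right _ _).trans (min_le_right _ _))
    rw [lt_div_iff₀ hK'] at h3
    linarith [hT y]
  have hφT : Bump (fun y => φ (T y)) (1 / 2) :=
    ⟨hφ.1.comp T.contDiff, fun y hy => by linarith [hsm y hy]⟩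
  have e1 := hper φ ⟨hφ.1, fun y hy =>
    (hφ.2 y hy).trans_le ((min_le_right _ _).trans (min_le_left _ _))⟩
  simp only [sub_zero, one_smul, zero_smul, add_zero, sub_self, zero_add] at e1
  have e2 : ∀ x, ξ (R x) * φ (F x) = ξ' (R x) * φ (F x) := fun x => by
    by_cases hx : φ (F x) = 0
    · rw [hx, mul_zero, mul_zero]
    have h3 := (hφ.2 _ hx).trans_le (min_le_left _ _)
    rcases le_or_gt ‖R x‖ δ with h4 | h4
    · rw [g1 _ h4, h1 _ (h4.trans hδa)]
    rcases le_or_gt b ‖R x‖ with h5 | h5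
    · rw [g2 _ (hδb.trans h5), h2 _ h5]
    exact absurd (hle x ⟨h4.le, h5.le⟩) (not_le.2 h3)
  have e3 : ∀ x, ξ' (R x) * φ (T (R x)) * (fderiv ℝ (fun y => T (R y)) x).det =
      T.det * (φ (T (R x)) * (fderiv ℝ R x).det) := fun x => by
    have d : fderiv ℝ (fun y => T (R y)) x = T.comp (fderiv ℝ R x) :=
      (T.hasFDerivAt.comp x (hR.differentiable (by norm_num) x).hasFDerivAt).fderiv
    have d' : (T.comp (fderiv ℝ R x)).det = T.det * (fderiv ℝ R x).det := LinearMap.det_comp _ _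
    rw [d, d']
    by_cases hx : φ (T (R x)) = 0
    · rw [hx]; ring
    · rw [g1 _ (hsm _ hx).le]; ring
  simp only [e2]
  rw [show (fderiv ℝ F) = fderiv ℝ (fun y => F y) from rfl, e1]
  simp only [e3]
  rw [integral_const_mul, hdeg _ hφT]
  refine mul_ne_zero hdet (mul_ne_zero hr (ne_of_gt ?_))
  refine hφT.1.continuous.integral_pos_of_hasCompactSupport_nonneg_nonzero (x := 0)
    (HasCompactSupport.intro (isCompact_closedBall (0 : E J) 1) fun x hx => ?_)
    (fun y => hφ0 _) (by simp [hφ1])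
  by_contra h3
  exact hx (mem_closedBall_zero_iff.2 (by linarith [hφT.2 x h3]))

theorem degD_star : ContDiff ℝ 2 (star : ℍ → ℍ) :=
  (LinearMap.toContinuousLinearMap
    ({ toFun := star, map_add' := star_add, map_smul' := fun c q => by ext <;> simp } :
      ℍ →ₗ[ℝ] ℍ)).contDiff

/-- Continuation.  `Ξ = ξ ∘ hat (ev ∘ r)` with a plateau between `5δ/4` and `7δ/4`; `persist`
along `H (t, x) = hat (fun k x => ev (W k) x * star (A k t)) x`; if there were no solution at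
`t = 1`, then `H (1, ·)` has no zero on the compact set `‖hat (ev ∘ r)‖ ≤ 7δ/4`, and the integral
vanishes for small `φ`, against `loc_deg_ne`. -/
theorem deg_sq {r W : J → FreeGroup J} (hr : (abM r).det ≠ 0) {B : Matrix J J ℝ}
    (hB : ∀ v, B.mulVec v = 0 → v = 0) {C : ℝ} (h : LinH r W B C) (A : J → ℝ → U)
    (hA : ∀ k, ContDiff ℝ 2 fun t => (A k t : ℍ)) (hA0 : ∀ k, A k 0 = 1) {δ : ℝ} (hδ : 0 < δ)
    (hδ' : δ ≤ 1 / 8)
    (gap : ∀ t ∈ Set.Icc (0 : ℝ) 1, ∀ σ : J → U, (∀ k, FreeGroup.lift σ (W k) = A k t) →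
      (∀ j, ‖evU σ (r j) - 1‖ ≤ δ) ∨ ∃ j, 2 * δ ≤ ‖evU σ (r j) - 1‖)
    (gap0 : ∀ σ : J → U, (∀ k, FreeGroup.lift σ (W k) = 1) → (∀ j, ‖evU σ (r j) - 1‖ ≤ δ) →
      ∀ j, FreeGroup.lift σ (r j) = 1) :
    ∃ σ : J → U, (∀ k, FreeGroup.lift σ (W k) = A k 1) ∧ ∀ j, ‖evU σ (r j) - 1‖ ≤ δ := by
  by_contra hno
  have hone : ((1 : U) : ℍ) = 1 := rfl
  obtain ⟨ξ, hξ, h1, h2⟩ := exists_plateau (J := J) (a := 5 * δ / 4) (b := 7 * δ / 4)
    (by positivity) (by linarith)
  set R := hat (fun k => ev (r k)) with hR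
  have hRc : ContDiff ℝ 2 R := hat_contDiff fun k => ev_adm (r k)
  let W' : J → ℝ × E J → ℍ := fun k p => ev (W k) p.2 * star (A k p.1 : ℍ)
  have hW' : ∀ k, AdmF (W' k) := fun k t x hx => by
    obtain ⟨a1, a2⟩ := (ev_adm (W k)).admF t x hx
    refine ⟨a1.mul ?_, ?_⟩
    · exact (degD_star.comp ((hA k).comp contDiff_fst)).contDiffAt
    · have a3 : ‖(A k t : ℍ)‖ = 1 := norm_eq_of_mem_sphere _
      simp only [W', norm_mul, norm_star, a3, mul_one]
      exact a2
  let H : ℝ × E J → E J := fun p => hat (fun k x => W' k (p.1, x)) p.2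
  have hH : ContDiff ℝ 2 H := hatF_contDiff hW'
  have hsol : ∀ t x, H (t, x) = 0 → (∀ k, FreeGroup.lift (fun j => toU (x j)) (W k) = A k t) ∧
      ∀ j, R x j = evU (fun j => toU (x j)) (r j) - 1 := by
    intro t x hx
    obtain ⟨a1, a2⟩ := (hat_eq_zero fun k => (hW' k).adm t).1 hx
    refine ⟨fun k => Subtype.ext ?_, fun j => hat_unit _ a1 j⟩
    have a3 : ‖(A k t : ℍ)‖ = 1 := norm_eq_of_mem_sphere _
    have a4 : star (A k t : ℍ) * A k t = 1 := by
      rw [Quaternion.star_mul_self, Quaternion.normSq_eq_norm_mul_self, a3, one_mul,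
        Quaternion.coe_one]
    have a5 : ev (W k) x * star (A k t : ℍ) = 1 := a2 k
    show ev (W k) x = A k t
    rw [← mul_one (ev (W k) x), ← a4, ← mul_assoc, a5, one_mul]
  have hbd : ∀ x, ‖R x‖ ≤ 7 * δ / 4 → x ∈ Metric.closedBall (0 : E J) 2 := fun x hx => by
    rw [mem_closedBall_zero_iff]
    refine (pi_norm_le_iff_of_nonneg (by norm_num)).2 fun j => ?_
    have := (abs_le.1 ((hat_small (fun k => ev_adm (r k)) (x := x) (by linarith)).1 j).2).2
    linarith
  have hlow : ∀ t ∈ Set.Icc (0 : ℝ) 1, ∀ x, H (t, x) = 0 → ‖R x‖ < 2 * δ →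
      ∀ j, ‖evU (fun j => toU (x j)) (r j) - 1‖ ≤ δ := by
    intro t ht x hx hx'
    refine (gap t ht _ (hsol t x hx).1).resolve_right ?_
    rintro ⟨j, hj⟩
    rw [← (hsol t x hx).2] at hj
    linarith [norm_le_pi_norm (R x) j]
  have hH0 : (fun y => H (0, y)) = hat fun k => ev (W k) := by
    funext y
    simp only [H, W', hA0, hone, star_one, mul_one]
  obtain ⟨ε1, hε1, p1⟩ := persist H hH (fun x => ξ (R x)) (hξ.comp hRc)
    (HasCompactSupport.intro (isCompact_closedBall 0 2) fun x hx =>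
      h2 _ (le_of_not_ge fun hx' => hx (hbd x hx')))
    (fun t ht x hx => by
      by_cases hx' : ‖R x‖ < 2 * δ
      · have a1 : ‖R x‖ ≤ δ := (pi_norm_le_iff_of_nonneg hδ.le).2 fun j => by
          rw [(hsol t x hx).2]; exact hlow t ht x hx hx' j
        have a2 : ∀ᶠ y in 𝓝 x, ‖R y‖ < 5 * δ / 4 :=
          hRc.continuous.norm.continuousAt.eventually_lt continuousAt_const (by linarith)
        filter_upwards [a2] with y hy
        rw [h1 _ hy.le, h1 _ (by linarith)]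
      · have a2 : ∀ᶠ y in 𝓝 x, 7 * δ / 4 < ‖R y‖ :=
          continuousAt_const.eventually_lt hRc.continuous.norm.continuousAt (by linarith)
        filter_upwards [a2] with y hy
        rw [h2 _ hy.le, h2 _ (by linarith)])
  obtain ⟨ε2, hε2, p2⟩ := loc_deg_ne hr hB h hξ (a := 5 * δ / 4) (b := 7 * δ / 4) (by positivity)
    (by linarith) h1 h2 (fun x hx hx' => by
      have a0 : H (0, x) = 0 := (congrFun hH0 x).trans hx
      have a1 := gap0 _ (fun k => ((hsol 0 x a0).1 k).trans (hA0 k))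
        (hlow 0 ⟨le_rfl, zero_le_one⟩ x a0 (by linarith))
      funext j
      rw [← hR, (hsol 0 x a0).2, evU, a1, hone, sub_self, Pi.zero_apply])
  have hK : IsCompact {x | ‖R x‖ ≤ 7 * δ / 4} :=
    (isCompact_closedBall 0 2).of_isClosed_subset
      (isClosed_le hRc.continuous.norm continuous_const) hbd
  obtain ⟨ε3, hε3, p3⟩ := hK.exists_forall_le' (f := fun x => ‖H (1, x)‖) (a := 0)
    (hH.continuous.comp (continuous_const.prodMk continuous_id)).norm.continuousOn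
    (fun x hx => norm_pos_iff.2 fun a0 => hno ⟨_, (hsol 1 x a0).1,
      hlow 1 ⟨zero_le_one, le_rfl⟩ x a0 (by have : ‖R x‖ ≤ 7 * δ / 4 := hx; linarith)⟩)
  obtain ⟨φ, hφ, hφ0, hφ1⟩ := exists_bump (J := J) (lt_min hε1 (lt_min hε2 hε3))
  refine p2 φ ⟨hφ.1, fun y hy => (hφ.2 y hy).trans_le ((min_le_right _ _).trans (min_le_left _ _))⟩
    hφ0 hφ1 ?_
  have q1 := p1 φ ⟨hφ.1, fun y hy => (hφ.2 y hy).trans_le (min_le_left _ _)⟩
  have q2 : ∀ x, H (0, x) = hat (fun k => ev (W k)) x := congrFun hH0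
  simp only [q2] at q1
  rw [q1]
  refine integral_eq_zero_of_ae (Filter.Eventually.of_forall fun x => ?_)
  by_cases hx : ‖R x‖ ≤ 7 * δ / 4
  · have : φ (H (1, x)) = 0 := by
      by_contra hne
      have := (hφ.2 _ hne).trans_le ((min_le_right _ _).trans (min_le_right _ _))
      linarith [p3 x hx]
    simp [this]
  · simp [h2 _ (le_of_not_ge hx)]

end Crest.Agent.R197
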