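import Crest.Agent.R197.DegD

/-! Row 197: solving word equations by continuation (general case). -/

set_option autoImplicit false

namespace Crest.Agent.R197

open scoped Quaternion Topology

variable {J : Type} [Fintype J] [DecidableEq J]

/-- Independent relators have a non-singular maximal minor.  The columns
`i ↦ (k ↦ lin (Pi.single i 1) (r k))` span `J → ℝ` (by `hdual`, `lin α w` is the finite sum of
`α i * lin (Pi.single i 1) w`); extract a basis, index it by `J` through an injection `e`, and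
send `of (e j) ↦ of j`, the other generators to `1`. -/
theorem exists_minor {ι : Type} (r : J → FreeGroup ι)
    (hdual : ∀ j, ∃ α : ι → ℝ, ∀ k, lin α (r k) = if k = j then 1 else 0) :
    ∃ f : FreeGroup ι →* FreeGroup J, (abM fun k => f (r k)).det ≠ 0 := by
  classical
  have hfin : ∀ w : FreeGroup ι, ∃ s : Finset ι, ∀ t : Finset ι, s ⊆ t → ∀ α : ι → ℝ,
      lin α w = ∑ i ∈ t, α i * lin (Pi.single i 1) w := by
    intro w
    induction w using FreeGroup.induction_on with
    | C1 => exact ⟨∅, fun t _ α => by simp [lin]⟩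
    | of i =>
      refine ⟨{i}, fun t ht α => ?_⟩
      have hi : i ∈ t := ht (Finset.mem_singleton_self i)
      simp [lin, Pi.single_apply, hi]
    | inv_of i hi =>
      obtain ⟨s, hs⟩ := hi
      refine ⟨s, fun t ht α => ?_⟩
      have := hs t ht α
      simp only [lin, map_inv, toAdd_inv, mul_neg, Finset.sum_neg_distrib] at this ⊢
      rw [this]
    | mul a b ha hb =>
      obtain ⟨s, hs⟩ := ha
      obtain ⟨s', hs'⟩ := hb
      refine ⟨s ∪ s', fun t ht α => ?_⟩
      have h1 := hs t (Finset.subset_union_left.trans ht) α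
      have h2 := hs' t (Finset.subset_union_right.trans ht) α
      simp only [lin, map_mul, toAdd_mul, mul_add, Finset.sum_add_distrib] at h1 h2 ⊢
      rw [h1, h2]
  choose s hs using fun k => hfin (r k)
  let c : ι → J → ℝ := fun i k => lin (Pi.single i 1) (r k)
  have htop : ⊤ ≤ Submodule.span ℝ (Set.range c) := by
    rw [← (Pi.basisFun ℝ J).span_eq, Submodule.span_le]
    rintro _ ⟨j, rfl⟩
    obtain ⟨α, hα⟩ := hdual j
    have : Pi.basisFun ℝ J j = ∑ i ∈ Finset.univ.biUnion s, α i • c i := by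
      ext k
      rw [Finset.sum_apply]
      have h1 := hs k (Finset.univ.biUnion s)
        (Finset.subset_biUnion_of_mem s (Finset.mem_univ k)) α
      rw [hα] at h1
      simpa [c, Pi.single_apply] using h1
    rw [this]
    exact Submodule.sum_mem _ fun i _ => Submodule.smul_mem _ _ (Submodule.subset_span ⟨i, rfl⟩)
  obtain ⟨κ, a, ha, hsp, hli⟩ := exists_linearIndependent' ℝ c
  let e : J ≃ κ := (Pi.basisFun ℝ J).indexEquiv (Module.Basis.mk hli (hsp ▸ htop))
  have hinj : Function.Injective (a ∘ e) := ha.comp e.injective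
  let f : FreeGroup ι →* FreeGroup J :=
    FreeGroup.lift fun i => if h : ∃ j, (a ∘ e) j = i then FreeGroup.of h.choose else 1
  have hf : ∀ (j : J) (w : FreeGroup ι),
      lin (Pi.single j 1) (f w) = lin (Pi.single (a (e j)) 1) w := by
    intro j w
    have : (FreeGroup.lift fun i => Multiplicative.ofAdd ((Pi.single j 1 : J → ℝ) i)).comp f =
        FreeGroup.lift fun i => Multiplicative.ofAdd ((Pi.single (a (e j)) 1 : ι → ℝ) i) := by
      ext1 i
      simp only [MonoidHom.comp_apply, f, FreeGroup.lift_apply_of]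
      split_ifs with h
      · have h1 := h.choose_spec
        generalize h.choose = j' at h1
        subst h1
        rw [FreeGroup.lift_apply_of]
        by_cases hj : j' = j
        · subst hj; simp
        · have : a (e j') ≠ a (e j) := fun h => hj (hinj h)
          simp [hj, this]
      · have : i ≠ a (e j) := fun hi => h ⟨j, hi.symm⟩
        simp [this]
    exact congrArg Multiplicative.toAdd (DFunLike.congr_fun this w)
  refine ⟨f, ?_⟩
  have hli' : LinearIndependent ℝ (abM fun k => f (r k)).col := by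
    have : (abM fun k => f (r k)).col = (c ∘ a) ∘ e := by
      ext j k
      simp [abM, hf, c]
    rw [this]
    exact hli.comp e e.injective
  exact ((Matrix.isUnit_iff_isUnit_det _).1
    (Matrix.linearIndependent_cols_iff_isUnit.1 hli')).ne_zero

theorem deg_main {ι : Type} (r W : J → FreeGroup ι)
    (hdual : ∀ j, ∃ α : ι → ℝ, ∀ k, lin α (r k) = if k = j then 1 else 0) {B : Matrix J J ℝ}
    (hB : ∀ v, B.mulVec v = 0 → v = 0) {C : ℝ} (h : LinH r W B C) (A : J → ℝ → U)
    (hA : ∀ k, ContDiff ℝ 2 fun t => (A k t : ℍ)) (hA0 : ∀ k, A k 0 = 1) {δ : ℝ} (hδ : 0 < δ)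
    (hδ' : δ ≤ 1 / 8)
    (gap : ∀ t ∈ Set.Icc (0 : ℝ) 1, ∀ σ : ι → U, (∀ k, FreeGroup.lift σ (W k) = A k t) →
      (∀ j, ‖evU σ (r j) - 1‖ ≤ δ) ∨ ∃ j, 2 * δ ≤ ‖evU σ (r j) - 1‖)
    (gap0 : ∀ σ : ι → U, (∀ k, FreeGroup.lift σ (W k) = 1) → (∀ j, ‖evU σ (r j) - 1‖ ≤ δ) →
      ∀ j, FreeGroup.lift σ (r j) = 1) :
    ∃ σ : ι → U, (∀ k, FreeGroup.lift σ (W k) = A k 1) ∧ ∀ j, ‖evU σ (r j) - 1‖ ≤ δ := by
  obtain ⟨f, hf⟩ := exists_minor r hdual
  let F : (J → U) → ι → U := fun σ i => FreeGroup.lift σ (f (FreeGroup.of i))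
  have key : ∀ (σ : J → U) (w : FreeGroup ι), FreeGroup.lift σ (f w) =
      FreeGroup.lift (F σ) w := fun σ w => by
    have : (FreeGroup.lift σ).comp f = FreeGroup.lift (F σ) := by
      ext1 i; simp [F]
    exact DFunLike.congr_fun this w
  have key' : ∀ (σ : J → U) (w : FreeGroup ι), evU σ (f w) = evU (F σ) w := fun σ w => by
    unfold evU; rw [key]
  clear_value F
  obtain ⟨σ, h1, h2⟩ := deg_sq (r := fun k => f (r k)) (W := fun k => f (W k)) hf hB (C := C)
    (fun σ ε h0 h1 hj k => by
      simp only [key'] at hj ⊢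
      exact h _ ε h0 h1 hj k) A hA hA0 hδ hδ'
    (fun t ht σ hW => by
      simp only [key', key] at hW ⊢
      exact gap t ht _ hW)
    (fun σ hW hj => by
      simp only [key', key] at hW hj ⊢
      exact gap0 _ hW hj)
  simp only [key', key] at h1 h2
  exact ⟨_, h1, h2⟩

end Crest.Agent.R197
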