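import Crest.Agent.R197.Defs

/-! Row 197: the complex `L`, the barycentric subdivision of the 2-skeleton of the Poincaré
sphere with one face class per pentagon (5 vertices, 10 edges, 6 pentagons). -/

set_option autoImplicit false
set_option maxRecDepth 100000

namespace Crest.Agent.R197

open scoped Quaternion

namespace LD

/-- The `i`-th digit of `N` in base `2 ^ k`. -/
def dig (N k i : ℕ) : ℕ := (N >>> (k * i)) % 2 ^ k

/-- Adjacency table. -/
def adjN : ℕ :=
  0x279f00eaf812b7c0717e0647f0299f96006260028a800c7000964002a9000d88011b0004b4001470007fe900fea407ec903f1c41f81e0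

def adjn (a b : ℕ) : Bool := dig adjN 1 (21 * a + b) == 1

/-- Bounded universal quantifier. -/
def allLt : ℕ → (ℕ → Bool) → Bool
  | 0, _ => true
  | n + 1, f => f n && allLt n f

theorem allLt_spec {n : ℕ} {f : ℕ → Bool} (h : allLt n f = true) {i : ℕ} (hi : i < n) :
    f i = true := by
  induction n with
  | zero => omega
  | succ n ih =>
    rw [allLt, Bool.and_eq_true] at h
    rcases Nat.lt_succ_iff_lt_or_eq.1 hi with h' | rfl
    · exact ih h.2 h'
    · exact h.1

theorem all2_spec {f : ℕ → ℕ → Bool} (h : (allLt 21 fun a => allLt 21 fun b => f a b) = true)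
    (a b : V) : f a b = true := allLt_spec (allLt_spec h a.2) b.2

theorem adjn_symm (a b : V) : adjn a b = adjn b a :=
  beq_iff_eq.1 (all2_spec (f := fun a b => adjn a b == adjn b a) (by decide +kernel) a b)

theorem adjn_irrefl (a : V) : adjn a a = false :=
  beq_iff_eq.1 (allLt_spec (n := 21) (f := fun a => adjn a a == false) (by decide +kernel) a.2)

def Γ : SimpleGraph V where
  Adj a b := adjn a b = true
  symm := ⟨fun a b h => by rw [adjn_symm]; exact h⟩
  loopless := ⟨fun a h => by rw [adjn_irrefl] at h; exact Bool.noConfusion h⟩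

theorem blt_iff {a b : ℕ} : Nat.blt a b = true ↔ a < b := by rw [Nat.blt_eq]

/-- Quantifier over the triangles. -/
def triAll (f : ℕ → ℕ → ℕ → Bool) : Bool :=
  allLt 21 fun a => allLt 21 fun b => !(Nat.blt a b && adjn a b) ||
    allLt 21 fun c => !(Nat.blt b c && (adjn b c && adjn a c)) || f a b c

theorem triAll_spec {f : ℕ → ℕ → ℕ → Bool} (h : triAll f = true) (t : Tri Γ) :
    f t.a t.b t.c = true := by
  have h1 := allLt_spec (allLt_spec h t.a.2) t.b.2
  have e1 : Nat.blt t.a t.b = true := blt_iff.2 t.ab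
  have e2 : Nat.blt t.b t.c = true := blt_iff.2 t.bc
  have e3 : adjn t.a t.b = true := t.adj_ab
  have e4 : adjn t.b t.c = true := t.adj_bc
  have e5 : adjn t.a t.c = true := t.adj_ac
  rw [e1, e3, Bool.and_self, Bool.not_true, Bool.false_or] at h1
  have h2 := allLt_spec h1 t.c.2
  rw [e2, e4, e5] at h2
  exact h2

def coln (a : ℕ) : Fin 3 := if a < 5 then 0 else if a < 15 then 1 else 2

def parn (v : ℕ) : ℕ := dig 0x7bc4f085ef001ef7bdef 5 v % 21

def rkn (v : ℕ) : ℕ := dig 0x2aa19a5a555 2 v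

def par (v : V) : V := ⟨parn v, Nat.mod_lt _ (by norm_num)⟩

def tiN : ℕ :=
  0xec0eb9e00037d80000000000035d33000000000000000000000cb1000030000000000000000000000000000000bc0bad00000000002c02b02a000000000a680009c00000000000000000009809640000000000000000000000000000008c002284002001f01e00000000000000000074070001b00000000000000000001a64060000000000000000000000000000000000000001759500051300048044040000f00000000000000000000000000000000e34c0000000000000000000000000000000000000000000000000000002ca0000092001c60000051000c0000002040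

def eiN : ℕ :=
  0x3cf3cf3cf3cf3cf3cf3cf3cf3cf3cf3cf3cf3cf3cf3cf3cf3cf3cf3cf3cf3cf3cf3cf3cf3cf3cf3cf3cf3cf3cf3cf3cf3cf3cf3cf3cf3cf3cf3cf3cf3cf3cf3cf3cf3cf3cf3cf3cf3cf3cf3cf3cf3cf3cf3cf3cf3cf3cf3cf3cf3cf3cf3cf3cf3bf3af3cf3cf3cf3cf3cf3cf3cf3ce7cf38dfcf3cf3cf3cf3cf3cf3cf3cf3cdbcd7cf3cf3cf3cf3cf3cf3cf3cf3cf34cf2f3cf3cf3cf3cf3cf3cf3cf3cf31c3cf2ff3cf3cf3cf3cf3cf3cf3cf3cbbcb7cf3cf3cf3cf3cf3cf3cf3cf3cf2cafcf3cf3cf3cf3cf3cf3cf3cf3cf3cabca68f3cf3cf3cf3cf3cf3cf3cf3cf3c9e6f25f3cf3cf3cf3cf3cf3cf3cf3cf3cf248fcf3cf3cf3cf3cf3cf3cf3cf228607def1d73c6fcf1af3cf3cf3cf3c6585d657c53c4fc4bcf11f3cf3cf3cf103ce34cf3cf0bf3c2bcf09f3cf3cf3c20718513cf3cf3cf03f3cf02f3cf3cf3cf3cf3cf3cf3cf3cf01f3c03cf3cf3c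

def hN : ℕ :=
  0x5555555555555555555555555555556189128614924895641985496181a12586159125524984984956065584a49158521a48499462612498556212556189124a44955865641985496151a15499215618468891a41899062641a45499215618468581951899062645646189124a44954895641985496151a18468612559099152526468522616185499215618468492612898462642645555555555555555555955465555649158521a484954662125949562125584686125590991525224a8522616185555555555555555555565525555589158521a48495466212498556212555499215618468492611899062642645555555555555555555555559155555555555555555555555555556155555555555555555555555555555655555555555555555555555555555595555555555555555555555555555565555555555555555555555555555559555555555555555555555555555556555555555555555555555555555555955555555555555555555555555555645555555555555555555555555555585555465555555555555555559155555555525555555555555555556155552589128614924895641985496181a12646068551a11958584a42499094a11986159125524984984956065584a45955555555555555555555555555551a5249906261164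8498612558498552646468551a11958584642589094925555565555555555555555555555556189124a14864895641985496241a15499215528468581951899062645646189124a14924895641985496181a16189124a14954895641985496151a12586158525524984984956065584a45555555955555555555555555555555555555565555555555555555555552586158525924984984946095584a16189124a14964895641985496141a19158521a48495462612498556212555499215618468491951899062645645499215618468491a11899062642646189124a44954865641985496151a15499215618468491a41899062641a45555555555555565555555555555555555555555555555955555555555555499215618468491a51899062641649158521a4849546621249495621255846861255909915252246852261618549921561846849261189846264264555555555555555555555546555564555555555555555555555552555558555555555555555555555595555555555555555555555555555556555555555555555555555555555555595555555555555555555555555555555556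

def riN : ℕ :=
  0x5040000000000000000600510000000000000000010500000000000000000021000000000000000000620000000000000000000601000000000000000000000000000000000000000000000000000000000000000000000000000000000000000000000000000000005740030700000000000515540000040050000000611510000000001000000621000000000000000000000000000000000000000

def tdN : ℕ :=
  0x93890711ee251a48b4906926b249648ac944126823d049387070dee1cd838b06f60e8a1cd438287438e471c4e3a345168a0d14d828b04f60a89149227a45330a46140c29ac325862b0d1419a830506890c9217a431286050bca1a2013401e8050e091c1138266048c0818112820503ca0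

def ndN : ℕ :=
  0x93a0ea362d8366c8b26b92e2ba2a6a82a89926889a28791e2799a4681a25816849924489204711a459104a0e6390e2380dc360d4338e8298a4288a026092230a819864188601484a1400a0

/-- The number of a triangle. -/
def tix (a b c : ℕ) : ℕ := dig tiN 6 ((a * 10 + (b - 5)) * 6 + (c - 15))

/-- The number of an edge outside the tree. -/
def eix (a b : ℕ) : ℕ := dig eiN 6 (21 * a + b)

/-- Vertices of the triangle number `j`. -/
def tv (j i : ℕ) : ℕ := dig tdN 5 (3 * j + i) % 21

/-- Vertices of the edge number `j`. -/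
def nv (j i : ℕ) : ℕ := dig ndN 5 (2 * j + i) % 21

def nt (t : Tri Γ) : V × V :=
  (⟨nv (tix t.a t.b t.c) 0, Nat.mod_lt _ (by norm_num)⟩,
    ⟨nv (tix t.a t.b t.c) 1, Nat.mod_lt _ (by norm_num)⟩)

def hn (u v j : ℕ) : ℕ := dig hN 2 (60 * eix u v + j)

def h1 (u v : V) (t : Tri Γ) : ℤ := (hn u v (tix t.a t.b t.c) : ℕ) - 1

theorem col_ne (a b : V) (h : Γ.Adj a b) : coln a ≠ coln b := by
  have h1 := all2_spec (f := fun a b => !adjn a b || coln a != coln b) (by decide +kernel) a b
  have h2 : adjn a b = true := h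
  simpa [h2] using h1

theorem ne_root {v : V} (h : v ≠ 15) : (v.val == 15) = false := by
  rw [beq_eq_false_iff_ne]
  exact fun e => h (Fin.ext e)

theorem par_adj (v : V) (h : v ≠ 15) : Γ.Adj (par v) v := by
  have h1 := allLt_spec (n := 21) (f := fun v => v == 15 || adjn (parn v) v)
    (by decide +kernel) v.2
  rw [ne_root h] at h1
  exact h1

theorem rk_lt (v : V) (h : v ≠ 15) : rkn (par v) < rkn v := by
  have h1 := allLt_spec (n := 21) (f := fun v => v == 15 || Nat.blt (rkn (parn v)) (rkn v))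
    (by decide +kernel) v.2
  rw [ne_root h] at h1
  exact blt_iff.1 h1

theorem nt_edge (t : Tri Γ) : (nt t).1 < (nt t).2 ∧ Γ.Adj (nt t).1 (nt t).2 := by
  have h1 := triAll_spec (f := fun a b c => Nat.blt (nv (tix a b c) 0) (nv (tix a b c) 1) &&
    adjn (nv (tix a b c) 0) (nv (tix a b c) 1)) (by decide +kernel) t
  rw [Bool.and_eq_true] at h1
  exact ⟨blt_iff.1 h1.1, h1.2⟩

theorem tix_spec (t : Tri Γ) : tix t.a t.b t.c < 60 ∧ tv (tix t.a t.b t.c) 0 = t.a ∧
    tv (tix t.a t.b t.c) 1 = t.b ∧ tv (tix t.a t.b t.c) 2 = t.c := by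
  have h1 := triAll_spec (f := fun a b c => Nat.blt (tix a b c) 60 && (tv (tix a b c) 0 == a &&
    (tv (tix a b c) 1 == b && tv (tix a b c) 2 == c))) (by decide +kernel) t
  simpa only [Bool.and_eq_true, Nat.blt_eq, beq_iff_eq] using h1

theorem tix_inj {t t' : Tri Γ} (h : tix t.a t.b t.c = tix t'.a t'.b t'.c) : t = t' := by
  obtain ⟨-, a1, a2, a3⟩ := tix_spec t
  obtain ⟨-, b1, b2, b3⟩ := tix_spec t'
  rw [h] at a1 a2 a3
  exact Subtype.ext (Prod.ext (Fin.ext (a1.symm.trans b1))
    (Prod.ext (Fin.ext (a2.symm.trans b2)) (Fin.ext (a3.symm.trans b3))))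

theorem cover (a b : V) (hab : a < b) (h : Γ.Adj a b) :
    (b ≠ 15 ∧ a = par b) ∨ (a ≠ 15 ∧ b = par a) ∨ ∃ t, nt t = (a, b) := by
  have h1 := all2_spec (f := fun a b => !(Nat.blt a b && adjn a b) ||
    ((b != 15 && a == parn b) || ((a != 15 && b == parn a) ||
      (Nat.blt (tv (eix a b) 0) (tv (eix a b) 1) && (Nat.blt (tv (eix a b) 1) (tv (eix a b) 2) &&
      (adjn (tv (eix a b) 0) (tv (eix a b) 1) && (adjn (tv (eix a b) 1) (tv (eix a b) 2) &&
      (adjn (tv (eix a b) 0) (tv (eix a b) 2) &&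
      (nv (tix (tv (eix a b) 0) (tv (eix a b) 1) (tv (eix a b) 2)) 0 == a &&
        nv (tix (tv (eix a b) 0) (tv (eix a b) 1) (tv (eix a b) 2)) 1 == b)))))))))
    (by decide +kernel) a b
  have e1 : Nat.blt a b = true := blt_iff.2 hab
  have e2 : adjn a b = true := h
  rw [e1, e2] at h1
  simp only [Bool.and_self, Bool.not_true, Bool.false_or, Bool.or_eq_true, Bool.and_eq_true,
    Nat.blt_eq, beq_iff_eq, bne_iff_ne] at h1
  rcases h1 with ⟨h2, h3⟩ | ⟨h2, h3⟩ | ⟨c1, c2, c3, c4, c5, c6, c7⟩
  · exact Or.inl ⟨fun e => h2 (congrArg Fin.val e), Fin.ext h3⟩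
  · exact Or.inr (Or.inl ⟨fun e => h2 (congrArg Fin.val e), Fin.ext h3⟩)
  · exact Or.inr (Or.inr ⟨⟨(⟨tv (eix a b) 0, Nat.mod_lt _ (by norm_num)⟩,
      ⟨tv (eix a b) 1, Nat.mod_lt _ (by norm_num)⟩, ⟨tv (eix a b) 2, Nat.mod_lt _ (by norm_num)⟩),
      c1, c2, c3, c4, c5⟩, Prod.ext (Fin.ext c6) (Fin.ext c7)⟩)

theorem h1_spec (t t' : Tri Γ) :
    h1 t.b t.c t' - h1 t.a t.c t' + h1 t.a t.b t' = if t' = t then 1 else 0 := by
  have h0 := triAll_spec (f := fun a b c => allLt 60 fun j =>
    hn b c j + hn a b j == hn a c j + 1 + (if j = tix a b c then 1 else 0)) (by decide +kernel) t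
  have h2 := beq_iff_eq.1 (allLt_spec h0 (tix_spec t').1)
  simp only [h1]
  by_cases e : t' = t
  · rw [if_pos (by rw [e])] at h2
    rw [if_pos e]
    omega
  · rw [if_neg fun e' => e (tix_inj e')] at h2
    rw [if_neg e]
    omega

/-- `ℤ[φ]`. -/
abbrev Zp : Type := ℤ × ℤ

/-- Quaternions over `ℤ[φ]`. -/
abbrev Q8 : Type := Zp × Zp × Zp × Zp

def zm (x y : Zp) : Zp := (x.1 * y.1 + x.2 * y.2, x.1 * y.2 + x.2 * y.1 + x.2 * y.2)

def za (x y : Zp) : Zp := (x.1 + y.1, x.2 + y.2)

def zs (x y : Zp) : Zp := (x.1 - y.1, x.2 - y.2)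

def qm (p q : Q8) : Q8 :=
  (zs (zs (zs (zm p.1 q.1) (zm p.2.1 q.2.1)) (zm p.2.2.1 q.2.2.1)) (zm p.2.2.2 q.2.2.2),
   zs (za (za (zm p.1 q.2.1) (zm p.2.1 q.1)) (zm p.2.2.1 q.2.2.2)) (zm p.2.2.2 q.2.2.1),
   za (za (zs (zm p.1 q.2.2.1) (zm p.2.1 q.2.2.2)) (zm p.2.2.1 q.1)) (zm p.2.2.2 q.2.1),
   za (zs (za (zm p.1 q.2.2.2) (zm p.2.1 q.2.2.1)) (zm p.2.2.1 q.2.1)) (zm p.2.2.2 q.1))

def dbl (p : Q8) : Q8 := (za p.1 p.1, za p.2.1 p.2.1, za p.2.2.1 p.2.2.1, za p.2.2.2 p.2.2.2)

def nrm (p : Q8) : Zp :=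
  za (za (za (zm p.1 p.1) (zm p.2.1 p.2.1)) (zm p.2.2.1 p.2.2.1)) (zm p.2.2.2 p.2.2.2)

def one : Q8 := ((2, 0), (0, 0), (0, 0), (0, 0))

def RV : List Q8 := [
    ((2, 0), (0, 0), (0, 0), (0, 0)), ((0, 1), (-1, 0), (0, 0), (-1, 1)),
    ((0, 1), (-1, 0), (0, 0), (1, -1)), ((0, 1), (-1, 1), (1, 0), (0, 0)),
    ((0, 1), (0, 0), (-1, 1), (1, 0)), ((0, 1), (0, 0), (1, -1), (1, 0)),
    ((0, 1), (1, -1), (-1, 0), (0, 0)), ((0, 1), (1, 0), (0, 0), (-1, 1))]

def r (a b : ℕ) : Q8 := RV.getD (dig riN 4 (21 * a + b)) one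

theorem r_nrm (a b : V) : nrm (r a b) = (4, 0) :=
  of_decide_eq_true (all2_spec (f := fun a b => decide (nrm (r a b) = (4, 0)))
    (by decide +kernel) a b)

theorem r_tri (t : Tri Γ) : qm (r t.a t.b) (r t.b t.c) = dbl (r t.a t.c) :=
  of_decide_eq_true (triAll_spec (f := fun a b c => decide (qm (r a b) (r b c) = dbl (r a c)))
    (by decide +kernel) t)

theorem r_tree (v : V) (h : v ≠ 15) : r (par v) v = one ∧ r v (par v) = one := by
  have h1 := allLt_spec (n := 21)
    (f := fun v => v == 15 || decide (r (parn v) v = one ∧ r v (parn v) = one))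
    (by decide +kernel) v.2
  rw [ne_root h] at h1
  exact of_decide_eq_true h1

theorem r_ne : r (1 : V) (18 : V) = ((0, 1), (-1, 0), (0, 0), (-1, 1)) := by decide +kernel

noncomputable def zr (x : Zp) : ℝ := x.1 + x.2 * Real.goldenRatio

theorem zr_zm (x y : Zp) : zr (zm x y) = zr x * zr y := by
  simp only [zr, zm]
  push_cast
  linear_combination (-(x.2 * y.2 : ℝ)) * Real.goldenRatio_sq

theorem zr_za (x y : Zp) : zr (za x y) = zr x + zr y := by
  simp only [zr, za]
  push_cast
  ring

theorem zr_zs (x y : Zp) : zr (zs x y) = zr x - zr y := by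
  simp only [zr, zs]
  push_cast
  ring

noncomputable def toH (p : Q8) : ℍ := ⟨zr p.1, zr p.2.1, zr p.2.2.1, zr p.2.2.2⟩

theorem toH_qm (p q : Q8) : toH (qm p q) = toH p * toH q := by
  ext <;> simp [toH, qm, zr_zm, zr_za, zr_zs]

theorem toH_dbl (p : Q8) : toH (dbl p) = (2 : ℝ) • toH p := by
  ext <;> simp [toH, dbl, zr_za, two_mul]

theorem normSq_toH (p : Q8) : Quaternion.normSq (toH p) = zr (nrm p) := by
  simp [Quaternion.normSq_def', toH, nrm, zr_zm, zr_za, sq]

theorem norm_r (a b : V) : ‖toH (r a b)‖ = 2 := by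
  have h := normSq_toH (r a b)
  rw [r_nrm, Quaternion.normSq_eq_norm_mul_self] at h
  have h2 : zr (4, 0) = 2 * 2 := by norm_num [zr]
  rw [h2] at h
  exact (mul_self_inj_of_nonneg (norm_nonneg _) (by norm_num)).1 h

noncomputable def ρ (a b : V) : U :=
  ⟨(1 / 2 : ℝ) • toH (r a b), by
    rw [mem_sphere_zero_iff_norm, norm_smul, norm_r]
    norm_num⟩

theorem ρ_coe (a b : V) : (ρ a b : ℍ) = (1 / 2 : ℝ) • toH (r a b) := rfl

theorem ρ_one {a b : V} (h : r a b = one) : ρ a b = 1 := by
  apply Subtype.ext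
  rw [ρ_coe, h]
  change _ = (1 : ℍ)
  ext <;> simp [toH, one, zr]

theorem ρ_tri (t : Tri Γ) : ρ t.a t.b * ρ t.b t.c = ρ t.a t.c := by
  apply Subtype.ext
  change (ρ t.a t.b : ℍ) * (ρ t.b t.c : ℍ) = _
  have h : qm (r t.a t.b) (r t.b t.c) = dbl (r t.a t.c) := r_tri t
  rw [ρ_coe, ρ_coe, ρ_coe, smul_mul_smul_comm, ← toH_qm, h, toH_dbl, smul_smul]
  norm_num

theorem ρ_ne : ρ 1 18 ≠ 1 := by
  intro h
  have h1 : (ρ 1 18 : ℍ) = 1 := congrArg Subtype.val h
  rw [ρ_coe, r_ne] at h1
  have h2 := congrArg QuaternionAlgebra.imI h1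
  simp [toH, zr] at h2

end LD

theorem exists_ldata : Nonempty LData :=
  ⟨{ Γ := LD.Γ
     col := fun a => LD.coln a
     col_ne := LD.col_ne
     root := 15
     par := LD.par
     rk := fun v => LD.rkn v
     par_adj := LD.par_adj
     rk_lt := LD.rk_lt
     nt := LD.nt
     nt_edge := LD.nt_edge
     cover := LD.cover
     h1 := LD.h1
     h1_spec := LD.h1_spec
     ρ := LD.ρ
     ρ_tri := LD.ρ_tri
     ρ_tree := fun v hv => ⟨LD.ρ_one (LD.r_tree v hv).1, LD.ρ_one (LD.r_tree v hv).2⟩
     ρ_ne := ⟨1, 18, by decide, (by decide +kernel : LD.adjn (1 : V) (18 : V) = true), LD.ρ_ne⟩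
     t0 := ⟨(0, 5, 15), by decide, by decide, (by decide +kernel : LD.adjn (0 : V) (5 : V) = true),
       (by decide +kernel : LD.adjn (5 : V) (15 : V) = true),
       (by decide +kernel : LD.adjn (0 : V) (15 : V) = true)⟩ }⟩

end Crest.Agent.R197
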