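import Crest.Agent.R197.Geom
import Crest.Agent.R197.DegE

/-! Row 197: a group containing the scaled copies of `L` has no aspherical presentation. -/

set_option autoImplicit false

namespace Crest.Agent.R197

open scoped Quaternion

theorem np_norm_conj (y u : U) : ‖((y⁻¹ * u * y : U) : ℍ) - 1‖ = ‖(u : ℍ) - 1‖ := by
  have hy : ‖(y : ℍ)‖ = 1 := by simp
  have h0 : (y : ℍ) ≠ 0 := by intro h; simp [h] at hy
  have : ((y⁻¹ * u * y : U) : ℍ) - 1 = (y : ℍ)⁻¹ * ((u : ℍ) - 1) * y := by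
    simp [mul_sub, sub_mul, h0]
  rw [this, norm_mul, norm_mul, norm_inv, hy]; simp

theorem np_norm_div (a b : U) : ‖((a * b⁻¹ : U) : ℍ) - 1‖ = ‖(a : ℍ) - b‖ := by
  have hb : ‖(b : ℍ)‖ = 1 := by simp
  have h0 : (b : ℍ) ≠ 0 := by intro h; simp [h] at hb
  have : ((a * b⁻¹ : U) : ℍ) - 1 = ((a : ℍ) - b) * (b : ℍ)⁻¹ := by
    simp [sub_mul, h0]
  rw [this, norm_mul, norm_inv, hb]; simp

theorem np_eq_one {u : U} (h : ‖(u : ℍ) - 1‖ ≤ 0) : u = 1 :=
  Subtype.ext (sub_eq_zero.1 (norm_le_zero_iff.1 h))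

theorem np_contDiff_inv {A : ℝ → U} (h : ContDiff ℝ 2 fun t => (A t : ℍ)) :
    ContDiff ℝ 2 fun t => (((A t)⁻¹ : U) : ℍ) := by
  let T : ℍ →L[ℝ] ℍ := LinearMap.toContinuousLinearMap
    { toFun := star, map_add' := star_add, map_smul' := fun c x => by ext <;> simp }
  have : (fun t => (((A t)⁻¹ : U) : ℍ)) = fun t => T (A t : ℍ) := by
    funext t
    have h1 : ‖(A t : ℍ)‖ = 1 := by simp
    have h2 : Quaternion.normSq (A t : ℍ) = 1 := by
      rw [Quaternion.normSq_eq_norm_mul_self, h1]; simp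
    rw [Metric.unitSphere.coe_inv]
    refine inv_eq_of_mul_eq_one_right ?_
    change (A t : ℍ) * star (A t : ℍ) = 1
    rw [Quaternion.self_mul_star, h2]; simp
  rw [this]
  exact T.contDiff.comp h

/-- Words along the spanning tree. -/
noncomputable def tw {F : Type} [Group F] (L : LData) (st : V → F) (v : V) : F :=
  if _h : v = L.root then 1 else tw L st (L.par v) * st v
termination_by L.rk v
decreasing_by exact L.rk_lt v _h

theorem tw_ne {F : Type} [Group F] (L : LData) (st : V → F) {v : V} (h : v ≠ L.root) :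
    tw L st v = tw L st (L.par v) * st v := by
  rw [tw, dif_neg h]

theorem exists_tree (L : LData) {G F : Type} [Group G] [Group F] (B : BB L G) (π : F →* G)
    (e : V → V → F) (he : ∀ a b, π (e a b) = B.q a b) (s : ℕ) :
    ∃ τ : V → F, (∀ v, π (τ v) = B.P s v) ∧ ∀ a b, a < b →
      ((b ≠ L.root ∧ a = L.par b) ∨ (a ≠ L.root ∧ b = L.par a)) →
        τ a * e a b ^ s * (τ b)⁻¹ = 1 := by
  refine ⟨tw L fun v => if L.par v < v then e (L.par v) v ^ s else (e v (L.par v) ^ s)⁻¹, ?_, ?_⟩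
  · intro v
    induction hn : L.rk v using Nat.strong_induction_on generalizing v with
    | _ n ih =>
      by_cases h : v = L.root
      · rw [tw, dif_pos h, h, B.P_root, map_one]
      · rw [tw_ne _ _ h, map_mul, ih _ (hn ▸ L.rk_lt v h) _ rfl]
        split_ifs
        · rw [map_pow, he, ← B.Pq s _ _ (L.par_adj v h)]
        · rw [map_inv, map_pow, he, B.Pq s _ _ (L.par_adj v h).symm]; group
  · rintro a b hab (⟨h, rfl⟩ | ⟨h, rfl⟩)
    · rw [tw_ne _ _ h, if_pos hab]; group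
    · rw [tw_ne _ _ h, if_neg (not_lt.2 hab.le)]; group

/-- The boxes have the holonomy prescribed by the slots. -/
theorem np_boxes (L : LData) {G S Q : Type} [Group G] [Group Q] (B : BB L G)
    (π : FreeGroup S →* G) (e : V → V → FreeGroup S) (he : ∀ a b, π (e a b) = B.q a b)
    (M R : ℕ) (hM : 0 < M) (τ : V → FreeGroup S) (hτ : ∀ v, π (τ v) = B.P ((M + 1) * R) v)
    (hτ' : ∀ a b, a < b → ((b ≠ L.root ∧ a = L.par b) ∨ (a ≠ L.root ∧ b = L.par a)) →
      τ a * e a b ^ ((M + 1) * R) * (τ b)⁻¹ = 1)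
    (σ : G → S → Q) (ρ : V → V → Q) (w : Tri L.Γ → ℕ → Q)
    (hρ : ∀ v, v ≠ L.root → ρ (L.par v) v = 1 ∧ ρ v (L.par v) = 1)
    (hw0 : ∀ t, w t 0 = 1) (hwM : ∀ t, w t M = ρ t.a t.b * ρ t.b t.c * (ρ t.a t.c)⁻¹)
    (h1 : ∀ t : Tri L.Γ,
      hol π σ (B.P ((M + 1) * R) t.a) (tri (e t.a t.b) (e t.a t.c) (e t.b t.c) ((M + 1) * R))
        = hol π σ (B.P ((M + 1) * R) t.a) (rect (e t.a t.b) (e t.a t.c) (M * R) R))
    (h2 : ∀ (t : Tri L.Γ) j, j + 1 < M →
      hol π σ 1 (τ t.a * rect (e t.a t.b) (e t.a t.c) ((j + 1) * R) R * (τ t.a)⁻¹) = w t (j + 1))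
    (h3 : ∀ t : Tri L.Γ, hol π σ 1 (τ (L.nt t).1 * e (L.nt t).1 (L.nt t).2 ^ ((M + 1) * R) *
      (τ (L.nt t).2)⁻¹) = ρ (L.nt t).1 (L.nt t).2) (t : Tri L.Γ) (j : ℕ) (hj : j < M) :
    ∃ y : Q, hol π σ (B.P ((M + 1) * R) t.a * B.q t.a t.b ^ (j * R))
      (rect (e t.a t.b) (e t.a t.c) R R) = y⁻¹ * (w t (j + 1) * (w t j)⁻¹) * y := by
  set s := (M + 1) * R with hs
  have hc : Commute (π (e t.a t.b)) (π (e t.a t.c)) := by rw [he, he]; exact B.comm t
  have hE : ∀ a b, a < b → L.Γ.Adj a b → hol π σ 1 (τ a * e a b ^ s * (τ b)⁻¹) = ρ a b := by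
    intro a b hab hadj
    rcases L.cover a b hab hadj with h | h | ⟨t', h⟩
    · rw [hτ' a b hab (Or.inl h), hol_one, h.2, (hρ b h.1).1]
    · rw [hτ' a b hab (Or.inr h), hol_one, h.2, (hρ a h.1).2]
    · have := h3 t'; rw [h] at this; exact this
  have hE1 : ∀ a b, L.Γ.Adj a b → π (τ a * e a b ^ s * (τ b)⁻¹) = 1 := by
    intro a b hadj
    rw [map_mul, map_mul, map_inv, map_pow, hτ, hτ, he, ← B.Pq s a b hadj]; group
  have hL : ∀ i ≤ M, hol π σ 1 (τ t.a * rect (e t.a t.b) (e t.a t.c) (i * R) R * (τ t.a)⁻¹) =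
      w t i := by
    intro i hi
    rcases Nat.eq_zero_or_pos i with rfl | h0
    · simp [rect, hw0]
    rcases hi.lt_or_eq with hi | rfl
    · obtain ⟨i, rfl⟩ : ∃ i', i = i' + 1 := ⟨i - 1, by omega⟩
      exact h2 t i hi
    · rw [hol_conj π σ 1 _ (π_rect π _ _ hc _ _), one_mul, hτ, ← h1, ← hτ, ← one_mul (π _),
        ← hol_conj π σ 1 _ (π_tri π _ _ _ hc (by rw [he, he, he]; exact B.tri t) _), hwM,
        ← hE _ _ t.ab t.adj_ab, ← hE _ _ t.bc t.adj_bc, ← hE _ _ t.ac t.adj_ac]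
      have : τ t.a * tri (e t.a t.b) (e t.a t.c) (e t.b t.c) s * (τ t.a)⁻¹ =
          (τ t.a * e t.a t.b ^ s * (τ t.b)⁻¹) * (τ t.b * e t.b t.c ^ s * (τ t.c)⁻¹) *
            (τ t.a * e t.a t.c ^ s * (τ t.c)⁻¹)⁻¹ := by
        rw [tri]; group
      have e1 := hE1 _ _ t.adj_ab
      have e2 := hE1 _ _ t.adj_bc
      have e3 := hE1 _ _ t.adj_ac
      rw [this]
      generalize τ t.a * e t.a t.b ^ s * (τ t.b)⁻¹ = x at e1 ⊢
      generalize τ t.b * e t.b t.c ^ s * (τ t.c)⁻¹ = y at e2 ⊢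
      generalize τ t.a * e t.a t.c ^ s * (τ t.c)⁻¹ = z at e3 ⊢
      simp [hol_mul, hol_inv, e1, e2, e3]
  have hA := hL (j + 1) hj
  have hB := hL j hj.le
  have hd : τ t.a * rect (e t.a t.b) (e t.a t.c) ((j + 1) * R) R * (τ t.a)⁻¹ =
      (τ t.a * e t.a t.b ^ (j * R)) * rect (e t.a t.b) (e t.a t.c) R R *
        (τ t.a * e t.a t.b ^ (j * R))⁻¹ *
        (τ t.a * rect (e t.a t.b) (e t.a t.c) (j * R) R * (τ t.a)⁻¹) := by
    rw [add_mul, one_mul, rect_add]; group
  rw [hd, hol_mul, hol_conj π σ 1 _ (π_rect π _ _ hc _ _)] at hA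
  have hp : π (τ t.a * e t.a t.b ^ (j * R) * rect (e t.a t.b) (e t.a t.c) R R *
      (τ t.a * e t.a t.b ^ (j * R))⁻¹) = 1 := by
    rw [map_mul, map_mul, π_rect π _ _ hc, map_inv]; group
  rw [hp, mul_one, hB, one_mul, map_mul, map_pow, hτ, he] at hA
  exact ⟨hol π σ 1 (τ t.a * e t.a t.b ^ (j * R)), by rw [← hA]; group⟩

/-- A word on the Cayley graph as a word in the edges. -/
def un {G S : Type} [Group G] (π : FreeGroup S →* G) (w : FreeGroup S) : FreeGroup (G × S) :=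
  hol π (fun g s => FreeGroup.of (g, s)) 1 w

theorem lift_un {G S Q : Type} [Group G] [Group Q] (π : FreeGroup S →* G) (σ : G × S → Q)
    (w : FreeGroup S) : FreeGroup.lift σ (un π w) = hol π (fun g s => σ (g, s)) 1 w := by
  rw [un, map_hol]; simp

theorem lin_un {G S : Type} [Group G] (π : FreeGroup S →* G) (α : G → S → ℝ) (w : FreeGroup S) :
    lin (fun p : G × S => α p.1 p.2) (un π w) = ahol π α 1 w := by
  rw [lin, lift_un, ahol]

theorem ahol_cw {G : Type} [Group G] (P : Pres G) (z : G → FreeGroup P.S)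
    (hz : ∀ h, P.π (z h) = h) (α : G → P.S → ℝ) (c : G × P.R) :
    ahol P.π α 1 (P.cw z c) = P.acurv α c := by
  rw [ahol, Pres.cw, hol_conj _ _ _ _ (P.π_r _), one_mul, hz]
  simp [Pres.acurv, ahol]

theorem np_gap {x η C δ : ℝ} (hx : 0 ≤ x) (hC : 0 ≤ C) (h : x ≤ η + C * x ^ 2) (h1 : x ≤ 2 * δ)
    (h2 : 4 * C * δ ≤ 1) : x ≤ 2 * η := by
  have : C * x ≤ 1 / 2 := by nlinarith
  nlinarith

theorem no_pres (L : LData) {G : Type} [Group G] (B : BB L G) (P : Pres G) : False := by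
  classical
  choose z hz using P.surj
  set e : V → V → FreeGroup P.S := fun a b => z (B.q a b) with hedef
  have he : ∀ a b, P.π (e a b) = B.q a b := fun a b => hz _
  clear_value e
  obtain ⟨R, C0, hC0, hgeom⟩ := geom L B P e he
  set δ : ℝ := 1 / (8 * (C0 + 1)) with hδdef
  have hδ : 0 < δ := by positivity
  have hδ8 : δ ≤ 1 / 8 := by
    rw [hδdef]; apply one_div_le_one_div_of_le <;> linarith
  have hδC : 4 * C0 * δ ≤ 1 := by
    rw [hδdef, mul_one_div, div_le_one (by positivity)]; linarith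
  choose ρ hρ hρ0 hρ1 hρc using fun a b => exists_path (L.ρ a b)
  have hsp : ∀ t : Tri L.Γ, _ := fun t =>
    spread (fun x => ρ t.a t.b x * ρ t.b t.c x * (ρ t.a t.c x)⁻¹)
      (by
        simp only [Metric.unitSphere.coe_mul]
        exact ((hρ _ _).mul (hρ _ _)).mul (np_contDiff_inv (hρ _ _)))
      (by simp [hρ0]) (by simp [hρ1, L.ρ_tri]) (η := δ / 2) (by positivity)
  choose M0 hM0 using hsp
  set M : ℕ := Finset.univ.sup M0 + 1 with hMdef
  have hM : 0 < M := Nat.succ_pos _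
  choose w hw hw0 hwM hw01 hwη using fun t =>
    hM0 t M ((Finset.le_sup (Finset.mem_univ t)).trans (Nat.le_succ _))
  clear_value M
  obtain ⟨d, K0, hd, g1, g2, g3⟩ := hgeom M
  obtain ⟨τ, hτ, hτ'⟩ := exists_tree L B P.π e he ((M + 1) * R)
  let Ww : Tri L.Γ × Fin M → FreeGroup P.S := fun tj =>
    if tj.2.val + 1 < M then
      τ tj.1.a * rect (e tj.1.a tj.1.b) (e tj.1.a tj.1.c) ((tj.2.val + 1) * R) R * (τ tj.1.a)⁻¹
    else τ (L.nt tj.1).1 * e (L.nt tj.1).1 (L.nt tj.1).2 ^ ((M + 1) * R) * (τ (L.nt tj.1).2)⁻¹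
  let As : Tri L.Γ × Fin M → ℝ → U := fun tj x =>
    if tj.2.val + 1 < M then w tj.1 (tj.2.val + 1) x else ρ (L.nt tj.1).1 (L.nt tj.1).2 x
  have hWπ : ∀ tj, P.π (Ww tj) = 1 := by
    rintro ⟨t, j⟩
    simp only [Ww]
    split_ifs
    · rw [map_mul, map_mul, π_rect P.π _ _ (by rw [he, he]; exact B.comm t), map_inv]; group
    · rw [map_mul, map_mul, map_inv, map_pow, hτ, hτ, he, ← B.Pq _ _ _ (L.nt_edge t).2]; group
  -- the box identity for prescribed slots
  have box : ∀ (Q : Type) [Group Q] (σ : G → P.S → Q) (ρ' : V → V → Q) (w' : Tri L.Γ → ℕ → Q),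
      (∀ c ∈ K0, c ∉ Set.range d → P.curv σ c = 1) →
      (∀ v, v ≠ L.root → ρ' (L.par v) v = 1 ∧ ρ' v (L.par v) = 1) →
      (∀ t, w' t 0 = 1) → (∀ t, w' t M = ρ' t.a t.b * ρ' t.b t.c * (ρ' t.a t.c)⁻¹) →
      (∀ tj, hol P.π σ 1 (Ww tj) = if tj.2.val + 1 < M then w' tj.1 (tj.2.val + 1)
        else ρ' (L.nt tj.1).1 (L.nt tj.1).2) → ∀ (t : Tri L.Γ) (j : Fin M),
      ∃ y : Q, hol P.π σ (B.P ((M + 1) * R) t.a * B.q t.a t.b ^ (j.val * R))
        (rect (e t.a t.b) (e t.a t.c) R R) = y⁻¹ * (w' t (j + 1) * (w' t j)⁻¹) * y := by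
    intro Q _ σ ρ' w' hf a1 a2 a3 a4 t j
    refine np_boxes L B P.π e he M R hM τ hτ hτ' σ ρ' w' a1 a2 a3 (g1 Q σ hf) ?_ ?_ t j j.2
    · intro t j hj
      have := a4 (t, ⟨j, by omega⟩)
      simpa only [Ww, hj, if_true] using this
    · intro t
      have := a4 (t, ⟨M - 1, by omega⟩)
      have hn : ¬ (M - 1 + 1 < M) := by omega
      simpa only [Ww, hn, if_false] using this
  choose Kw κ Cw hF using fun tj => P.exists_fills z hz (Ww tj) (hWπ tj)
  set K : Finset (G × P.R) := K0 ∪ Finset.univ.biUnion Kw ∪ Finset.univ.image d with hK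
  have hK0 : K0 ⊆ K := Finset.subset_union_left.trans Finset.subset_union_left
  have hKd : ∀ tj, d tj ∈ K := fun tj =>
    Finset.mem_union_right _ (Finset.mem_image_of_mem _ (Finset.mem_univ _))
  set C : ℝ := ∑ tj, Cw tj with hC
  have hFK : ∀ tj, P.Fills z (Ww tj) K (κ tj) C := fun tj =>
    Pres.Fills.mono P (hF tj) ((Finset.subset_biUnion_of_mem Kw (Finset.mem_univ tj)).trans
      (Finset.subset_union_right.trans Finset.subset_union_left))
      (Finset.single_le_sum (fun i _ => (hF i).nonneg) (Finset.mem_univ tj))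
  have hCn : 0 ≤ C := Finset.sum_nonneg fun i _ => (hF i).nonneg
  clear_value K C
  let Wd : G × P.R → FreeGroup P.S := Function.extend d Ww (P.cw z)
  let κd : G × P.R → G × P.R → ℝ :=
    Function.extend d (fun tj c => (κ tj c : ℝ)) fun c c' => if c' = c then 1 else 0
  let Ad : G × P.R → ℝ → U := Function.extend d As fun _ _ => 1
  have W1 : ∀ tj, Wd (d tj) = Ww tj := fun tj => hd.extend_apply _ _ _
  have W2 : ∀ c, c ∉ Set.range d → Wd c = P.cw z c := fun c h => Function.extend_apply' _ _ _ h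
  have k1 : ∀ tj, κd (d tj) = fun c => (κ tj c : ℝ) := fun tj => hd.extend_apply _ _ _
  have k2 : ∀ c, c ∉ Set.range d → κd c = fun c' => if c' = c then 1 else 0 :=
    fun c h => Function.extend_apply' _ _ _ h
  have A1 : ∀ tj, Ad (d tj) = As tj := fun tj => hd.extend_apply _ _ _
  have A2 : ∀ c, c ∉ Set.range d → Ad c = fun _ => 1 := fun c h => Function.extend_apply' _ _ _ h
  clear_value Wd κd Ad
  have nr : ∀ (σ : G × P.S → U) (c : G × P.R), ‖evU σ (un P.π (P.cw z c)) - 1‖ =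
      ‖((P.curv (fun g s => σ (g, s)) c : U) : ℍ) - 1‖ := fun σ c => by
    rw [evU, lift_un, P.norm_cw z hz]
  -- the estimate on the special cells
  have est : ∀ (σ : G × P.S → U) (ρ' : V → V → U) (w' : Tri L.Γ → ℕ → U) (η : ℝ),
      (∀ c ∈ K, c ∉ Set.range d → FreeGroup.lift σ (un P.π (Wd c)) = 1) →
      (∀ v, v ≠ L.root → ρ' (L.par v) v = 1 ∧ ρ' v (L.par v) = 1) →
      (∀ t, w' t 0 = 1) → (∀ t, w' t M = ρ' t.a t.b * ρ' t.b t.c * (ρ' t.a t.c)⁻¹) →
      (∀ tj, FreeGroup.lift σ (un P.π (Wd (d tj))) = if tj.2.val + 1 < M then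
        w' tj.1 (tj.2.val + 1) else ρ' (L.nt tj.1).1 (L.nt tj.1).2) →
      (∀ t, ∀ j < M, ‖(w' t (j + 1) : ℍ) - w' t j‖ ≤ η) → 0 ≤ η →
      (∀ c ∈ K, ‖evU σ (un P.π (P.cw z c)) - 1‖ ≤ 2 * δ) →
      ∀ c ∈ K, ‖evU σ (un P.π (P.cw z c)) - 1‖ ≤ 2 * η := by
    intro σ ρ' w' η hf a1 a2 a3 a4 a5 hη hs c hc
    have flat : ∀ c ∈ K, c ∉ Set.range d → ‖evU σ (un P.π (P.cw z c)) - 1‖ ≤ 0 := by
      intro c hc hn
      rw [evU, ← W2 c hn, hf c hc hn]; simp
    by_cases hn : c ∈ Set.range d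
    · obtain ⟨⟨t, j⟩, rfl⟩ := hn
      have hfl : ∀ c ∈ K0, c ∉ Set.range d → P.curv (fun g s => σ (g, s)) c = 1 :=
        fun c hc hn => np_eq_one (nr σ c ▸ flat c (hK0 hc) hn)
      obtain ⟨y, hy⟩ := box U _ ρ' w' hfl a1 a2 a3
        (fun tj => by rw [← lift_un, ← W1]; exact a4 tj) t j
      have h1 := hs _ hc
      rw [nr] at h1 ⊢
      have h2 := g3 _ hfl t j (by linarith)
      rw [hy, np_norm_conj, np_norm_div] at h2
      exact np_gap (norm_nonneg _) hC0 (h2.trans (by linarith [a5 t j j.2])) h1 hδC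
    · linarith [flat c hc hn]
  have tree : ∀ x v, v ≠ L.root → ρ (L.par v) v x = 1 ∧ ρ v (L.par v) x = 1 := fun x v hv =>
    ⟨hρc _ _ (L.ρ_tree v hv).1 x, hρc _ _ (L.ρ_tree v hv).2 x⟩
  have est' : ∀ (σ : G × P.S → U) (x η : ℝ),
      (∀ k : K, FreeGroup.lift σ (un P.π (Wd k)) = Ad k x) →
      (∀ t, ∀ j < M, ‖(w t (j + 1) x : ℍ) - w t j x‖ ≤ η) → 0 ≤ η →
      (∀ c : K, ‖evU σ (un P.π (P.cw z c)) - 1‖ ≤ 2 * δ) →
      ∀ c : K, ‖evU σ (un P.π (P.cw z c)) - 1‖ ≤ 2 * η := by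
    intro σ x η hW a5 hη hs c
    refine est σ (fun a b => ρ a b x) (fun t j => w t j x) η (fun c hc hn => ?_) (tree x)
      (fun t => hw0 t x) (fun t => hwM t x) (fun tj => ?_) a5 hη (fun c hc => hs ⟨c, hc⟩) c c.2
    · rw [hW ⟨c, hc⟩, A2 c hn]
    · rw [hW ⟨d tj, hKd tj⟩, A1]
  choose α hα1 hα0 using fun c : K => P.dual K c
  have hα : ∀ c k : K, P.acurv (α c) k = if k = c then 1 else 0 := by
    intro c k
    split_ifs with h
    · rw [h]; exact hα1 c
    · exact hα0 c k k.2 fun h' => h (Subtype.ext h')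
  obtain ⟨σ, hσ1, hσ2⟩ := deg_main (J := K) (fun c => un P.π (P.cw z c)) (fun c => un P.π (Wd c))
    (fun c => ⟨fun p => α c p.1 p.2, fun k => by rw [lin_un, ahol_cw P z hz, hα]⟩)
    (B := Matrix.of fun k c : K => κd k c) (C := C)
    (by
      intro v hv
      set β : G → P.S → ℝ := ∑ c : K, v c • α c with hβ
      have hb : ∀ k : K, P.acurv β k = v k := fun k => by
        rw [Pres.acurv, hβ, ahol_sum]
        simp only [ahol_smul]
        have := fun c => hα c k
        simp only [Pres.acurv] at this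
        simp [this]
      have hv' : ∀ k : K, ∑ c : K, κd k c * v c = 0 := fun k => congrFun hv k
      have hout : ∀ c ∈ K, c ∉ Set.range d → P.acurv β c = 0 := by
        intro c hc hn
        have := hv' ⟨c, hc⟩
        rw [k2 c hn] at this
        simp only [ite_mul, one_mul, zero_mul] at this
        rw [Finset.sum_eq_single ⟨c, hc⟩ (fun b _ hb => if_neg fun h => hb (Subtype.ext h))
          (by simp), if_pos rfl] at this
        rw [hb ⟨c, hc⟩, this]
      funext k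
      rw [← hb k]
      by_cases hn : (k : G × P.R) ∈ Set.range d
      · obtain ⟨⟨t, j⟩, htj⟩ := hn
        rw [← htj]
        refine g2 β (fun c hc => hout c (hK0 hc)) t j ?_
        obtain ⟨y, hy⟩ := box (Multiplicative ℝ) (fun x s => Multiplicative.ofAdd (β x s))
          (fun _ _ => 1) (fun _ _ => 1)
          (fun c hc hn => Multiplicative.toAdd.injective (hout c (hK0 hc) hn))
          (fun _ _ => ⟨rfl, rfl⟩) (fun _ => rfl) (fun _ => by simp) (fun tj => by
            rw [ite_self]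
            refine Multiplicative.toAdd.injective ?_
            change ahol P.π β 1 (Ww tj) = 0
            rw [(hFK tj).add, ← Finset.sum_coe_sort]
            have := hv' ⟨d tj, hKd tj⟩
            rw [k1] at this
            simpa only [hb] using this) t j
        rw [ahol, hy]; simp
      · exact hout k k.2 hn)
    (by
      intro σ ε h0 h1 hj k
      by_cases hn : (k : G × P.R) ∈ Set.range d
      · obtain ⟨tj, htj⟩ := hn
        have := (hFK tj).lin (fun g s => σ (g, s)) ε h0 h1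
          (fun c hc => by rw [← nr]; exact hj ⟨c, hc⟩)
        rw [← Finset.sum_coe_sort] at this
        simpa only [Matrix.of_apply, ← htj, W1, k1, evU, lift_un] using this
      · simp only [Matrix.of_apply, W2 _ hn, k2 _ hn, ite_smul, one_smul, zero_smul]
        rw [Finset.sum_eq_single k (fun b _ hb => if_neg fun h => hb (Subtype.ext h))
          (by simp), if_pos rfl, sub_self, norm_zero]
        positivity)
    (fun k => Ad k)
    (by
      intro k
      by_cases hn : (k : G × P.R) ∈ Set.range d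
      · obtain ⟨tj, htj⟩ := hn
        rw [← htj, A1]
        by_cases h : tj.2.val + 1 < M
        · simp only [As, h, if_true]; exact hw _ _
        · simp only [As, h, if_false]; exact hρ _ _
      · rw [A2 _ hn]; exact contDiff_const)
    (by
      intro k
      by_cases hn : (k : G × P.R) ∈ Set.range d
      · obtain ⟨tj, htj⟩ := hn
        rw [← htj, A1]
        simp only [As, (hw01 _ _).1, hρ0, ite_self]
      · rw [A2 _ hn])
    hδ hδ8
    (by
      intro x hx σ hW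
      by_cases h : ∃ j : K, 2 * δ ≤ ‖evU σ (un P.π (P.cw z j)) - 1‖
      · exact Or.inr h
      · push Not at h
        refine Or.inl fun j => ?_
        have := est' σ x (δ / 2) hW (fun t j hj => hwη t j hj x hx) (by positivity)
          (fun c => (h c).le) j
        linarith)
    (by
      intro σ hW hs j
      refine np_eq_one ?_
      have := est' σ 0 0 (fun k => by
          rw [hW k]
          by_cases hn : (k : G × P.R) ∈ Set.range d
          · obtain ⟨tj, htj⟩ := hn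
            rw [← htj, A1]
            simp only [As, (hw01 _ _).1, hρ0, ite_self]
          · rw [A2 _ hn])
        (fun t j _ => by simp [(hw01 _ _).1]) le_rfl (fun c => by linarith [hs c]) j
      simpa [evU] using this)
  have hflat : ∀ c ∈ K, P.curv (fun g s => σ (g, s)) c = 1 := fun c hc => by
    refine np_eq_one ?_
    have := est' σ 1 0 hσ1 (fun t j _ => by simp [(hw01 _ _).2]) le_rfl
      (fun c => by linarith [hσ2 c]) ⟨c, hc⟩
    rw [nr] at this
    simpa using this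
  obtain ⟨a, b, hab, hadj, hne⟩ := L.ρ_ne
  rcases L.cover a b hab hadj with h | h | ⟨t, h⟩
  · exact hne (h.2 ▸ (L.ρ_tree b h.1).1)
  · exact hne (h.2 ▸ (L.ρ_tree a h.1).2)
  · have h1 := hσ1 ⟨d (t, ⟨M - 1, by omega⟩), hKd _⟩
    have hn : ¬ (M - 1 + 1 < M) := by omega
    rw [W1, lift_un, (hFK _).flat U _ hflat, A1] at h1
    simp only [As, hn, if_false, hρ1, h] at h1
    exact hne h1.symm

end Crest.Agent.R197
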